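import Vale.Agent.P329.Mark.Comb

set_option linter.all false

namespace Vale.Agent.P329.Mark

theorem choose_l {β I : Type} [Fintype I] [DecidableEq I] {w : I → ℕ → β} {N Λ K Y J X0 : ℕ}
    (hw : ∀ i, PF N Λ (w i)) (hK : 0 < K) (hJ : 0 < J) (hY : 0 < Y)
    (h1 : Y + N * (K * (J * Y) + Y) ≤ K * X0) (h2 : J * Y ≤ X0) (hΛ : 8 * (K * X0) ≤ Λ) :
    ∃ j < J, ∃ B, J * B ≤ Fintype.card I * (6 * (K * X0)) ∧
      ∀ i, {x : Fin (K * (X0 + j * Y)) | ∃ d ∈ Finset.Ico (K * (X0 + j * Y) - Y) (K * (X0 + j * Y)),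
        Ag (w i) (w i) (2 * (K * (X0 + j * Y)) - d + x) (2 * (K * (X0 + j * Y)) + x) d}.ncard ≤ B := by
  classical
  set l : ℕ → ℕ := fun j => K * (X0 + j * Y) with hl
  have hll : ∀ j, l j = K * X0 + K * (j * Y) := fun j => by rw [hl]; ring
  have hlu : ∀ j < J, l j ≤ 2 * (K * X0) := by
    intro j hj
    have h3 : K * (j * Y) ≤ K * X0 :=
      Nat.mul_le_mul_left K ((Nat.mul_le_mul_right Y hj.le).trans h2)
    rw [hll]; omega
  set Bad : ℕ → Finset (I × ℕ) := fun j => (Finset.univ ×ˢ Finset.range (6 * (K * X0))).filter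
    (fun it => 2 * l j ≤ it.2 ∧ it.2 < 3 * l j ∧ ∃ d ∈ Finset.Ico (l j - Y) (l j),
      Ag (w it.1) (w it.1) (it.2 - d) it.2 d) with hBad
  have key : ∀ j < J, ∀ j' < J, j < j' → Disjoint (Bad j) (Bad j') := by
    intro j hj j' hj' hlt
    rw [Finset.disjoint_left]
    rintro ⟨i, t⟩ h3 h4
    rw [hBad] at h3 h4
    simp only [Finset.mem_filter, Finset.mem_Ico] at h3 h4
    obtain ⟨-, h5, h6, d, ⟨h7, h8⟩, h9⟩ := h3
    obtain ⟨-, h10, h11, d', ⟨h12, h13⟩, h14⟩ := h4
    have h15 : l j + Y ≤ l j' := by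
      rw [hll, hll]
      have : K * (j * Y) + Y ≤ K * (j' * Y) := by
        calc K * (j * Y) + Y ≤ K * (j * Y) + K * Y := by
              have : Y ≤ K * Y := Nat.le_mul_of_pos_left Y hK
              omega
          _ = K * ((j + 1) * Y) := by ring
          _ ≤ K * (j' * Y) := Nat.mul_le_mul_left _ (Nat.mul_le_mul_right _ hlt)
      omega
    have h16 : l j' ≤ l j + K * (J * Y) := by
      rw [hll, hll]
      have : K * (j' * Y) ≤ K * (J * Y) :=
        Nat.mul_le_mul_left _ (Nat.mul_le_mul_right _ hj'.le)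
      omega
    have hjl := hlu j' hj'
    have h17 : Ag (w i) (w i) (t - d') (t - d' + (d' - d)) d := by
      have e : t - d' + (d' - d) = t - d := by omega
      rw [e]
      exact (h14.mono (by omega)).trans h9.symm
    have h18 := hw i _ _ _ (by omega) (by omega) h17
    have h19 : N * (d' - d) ≤ N * (K * (J * Y) + Y) := Nat.mul_le_mul_left _ (by omega)
    have h20 := hll j
    omega
  have hsum : ∑ j ∈ Finset.range J, (Bad j).card ≤ Fintype.card I * (6 * (K * X0)) := by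
    rw [← Finset.card_biUnion]
    · have h3 : ((Finset.range J).biUnion Bad) ⊆ Finset.univ ×ˢ Finset.range (6 * (K * X0)) := by
        intro y hy
        obtain ⟨j, -, hj⟩ := Finset.mem_biUnion.1 hy
        exact (Finset.mem_filter.1 hj).1
      refine (Finset.card_le_card h3).trans (le_of_eq ?_)
      rw [Finset.card_product, Finset.card_univ, Finset.card_range]
    · intro j hj j' hj' hne
      rw [Finset.mem_coe, Finset.mem_range] at hj hj'
      rcases lt_or_gt_of_ne hne with h | h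
      · exact key j hj j' hj' h
      · exact (key j' hj' j hj h).symm
  obtain ⟨j, hj, hB⟩ : ∃ j < J, J * (Bad j).card ≤ Fintype.card I * (6 * (K * X0)) := by
    by_contra hn
    push Not at hn
    have h3 : ∑ j ∈ Finset.range J, (Fintype.card I * (6 * (K * X0)) + 1) ≤
        ∑ j ∈ Finset.range J, J * (Bad j).card :=
      Finset.sum_le_sum fun j hj => hn j (Finset.mem_range.1 hj)
    rw [Finset.sum_const, Finset.card_range, smul_eq_mul, ← Finset.mul_sum] at h3
    have h4 := Nat.le_of_mul_le_mul_left h3 hJ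
    omega
  refine ⟨j, hj, (Bad j).card, hB, fun i => ?_⟩
  have hjl := hlu j hj
  rw [← Set.ncard_coe_finset]
  apply Set.ncard_le_ncard_of_injOn (fun x : Fin (K * (X0 + j * Y)) => (i, 2 * l j + x.val))
  · rintro x ⟨d, hd, h3⟩
    have hx := x.isLt
    have hx' : x.val < l j := hx
    rw [Finset.mem_Ico] at hd
    rw [Finset.mem_coe, hBad]
    simp only [Finset.mem_filter, Finset.mem_product, Finset.mem_univ, true_and, Finset.mem_range,
      Finset.mem_Ico]
    refine ⟨by omega, by omega, by omega, d, hd, ?_⟩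
    have hd2 : d < l j := hd.2
    have e : 2 * l j + x.val - d = 2 * (K * (X0 + j * Y)) - d + x.val := by
      show 2 * l j + x.val - d = 2 * l j - d + x.val
      omega
    rw [e]
    exact h3
  · intro x _ y _ hxy
    simp only [Prod.mk.injEq, true_and] at hxy
    exact Fin.ext (by omega)

theorem arith {H a N m B X X0 K Y J l : ℕ} (hH : 0 < H) (ha : N + 1 = a) (hm : m ≤ H)
    (hK : K = 100 * (H * H * H) * (a * a)) (hY : Y = 100 * (a * a) * K * (H * H * H))
    (hJ : J = 100 * (H * H)) (hl : l = K * X) (hX : X0 ≤ X) (hX0 : 0 < X0)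
    (hB : J * B ≤ m * (6 * (K * X0)))
    (hX1 : 100 * (2 * (H * H * a) + H * H * H * (3 * (a * a)) + H * H * (Y * (2 * a))) +
      2 * (100 * (H * H * H * (a * K))) + 2 * (100 * (H * H * (a * K * (a * a)))) ≤ X0) :
    m * m * (N + 1) + m * m * (N + 1) + m * m * m * ((3 * N + 1) * (N + 1)) +
      m * m * (Y * (2 * N + 1)) + m * B +
      m * m * m * (X * (2 * N + 1) + (N * l / X + 1) * (N * l / Y + 1)) +
      m * m * m * (X * (2 * N + 1) + (N * l / X + 1) * (N * l / Y + 1)) +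
      m * m * ((X + (N * l / X + 1)) * (N * (N + 1) + 1)) +
      m * m * ((X + (N * l / X + 1)) * (N * (N + 1) + 1)) < l := by
  have ha0 : 0 < a := by omega
  have hKpos : 0 < K := by rw [hK]; positivity
  have hYpos : 0 < Y := by rw [hY]; positivity
  have hXpos : 0 < X := by omega
  have hlX : X ≤ l := by rw [hl]; exact Nat.le_mul_of_pos_left X hKpos
  have hm2 : m * m ≤ H * H := Nat.mul_le_mul hm hm
  have hm3 : m * m * m ≤ H * H * H := Nat.mul_le_mul hm2 hm
  have haa : a ≤ a * a := Nat.le_mul_of_pos_left a ha0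
  have hHH : H ≤ H * H := Nat.le_mul_of_pos_left H hH
  have hHHH : H * H ≤ H * H * H := Nat.le_mul_of_pos_right _ hH
  have hdiv : N * l / X = N * K := by
    rw [hl, ← Nat.mul_assoc, Nat.mul_div_cancel _ hXpos]
  rw [hdiv]
  have hNK : N * K + 1 ≤ a * K := by
    rw [← ha, Nat.add_mul, one_mul]; omega
  have hN1 : N * (N + 1) + 1 ≤ a * a := by
    rw [← ha]; nlinarith
  have e1 : m * m * (N + 1) ≤ H * H * a := by rw [ha]; exact Nat.mul_le_mul_right _ hm2
  have e2 : m * m * m * ((3 * N + 1) * (N + 1)) ≤ H * H * H * (3 * (a * a)) := by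
    apply Nat.mul_le_mul hm3
    rw [ha]
    calc (3 * N + 1) * a ≤ (3 * a) * a := Nat.mul_le_mul_right _ (by omega)
      _ = 3 * (a * a) := by ring
  have e3 : m * m * (Y * (2 * N + 1)) ≤ H * H * (Y * (2 * a)) :=
    Nat.mul_le_mul hm2 (Nat.mul_le_mul_left _ (by omega))
  have e4 : 100 * (m * B) ≤ 6 * l := by
    have h1 : H * (100 * (H * B)) ≤ H * (6 * (K * X0)) := by
      calc H * (100 * (H * B)) = J * B := by rw [hJ]; ring
        _ ≤ m * (6 * (K * X0)) := hB
        _ ≤ H * (6 * (K * X0)) := Nat.mul_le_mul_right _ hm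
    have h2 := Nat.le_of_mul_le_mul_left h1 hH
    have h3 : m * B ≤ H * B := Nat.mul_le_mul_right _ hm
    have h4 : K * X0 ≤ K * X := Nat.mul_le_mul_left _ hX
    rw [hl]
    omega
  have hlK : 100 * (H * H * H * (a * a * X)) = l := by rw [hl, hK]; ring
  have e5 : 100 * (m * m * m * (X * (2 * N + 1) + (N * K + 1) * (N * l / Y + 1))) ≤
      3 * l + 100 * (H * H * H * (a * K)) := by
    have h1 : X * (2 * N + 1) ≤ 2 * (a * a * X) := by
      calc X * (2 * N + 1) ≤ X * (2 * a) := Nat.mul_le_mul_left _ (by omega)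
        _ ≤ X * (2 * (a * a)) := Nat.mul_le_mul_left _ (by omega)
        _ = _ := by ring
    have h2 : (N * K + 1) * (N * l / Y + 1) ≤ a * K * (N * l / Y) + a * K := by
      calc (N * K + 1) * (N * l / Y + 1) ≤ (a * K) * (N * l / Y + 1) :=
            Nat.mul_le_mul_right _ hNK
        _ = _ := by ring
    have h3 : 100 * (H * H * H * (a * K * (N * l / Y))) ≤ l := by
      have h4 : a * (100 * (H * H * H * (a * K * (N * l / Y)))) ≤ a * l := by
        have h5 : ∀ D, a * (100 * (H * H * H * (a * K * D))) = Y * D := by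
          intro D; rw [hY]; ring
        calc a * (100 * (H * H * H * (a * K * (N * l / Y)))) = Y * (N * l / Y) := h5 _
          _ ≤ N * l := Nat.mul_div_le _ _
          _ ≤ a * l := Nat.mul_le_mul_right _ (by omega)
      exact Nat.le_of_mul_le_mul_left h4 ha0
    calc 100 * (m * m * m * (X * (2 * N + 1) + (N * K + 1) * (N * l / Y + 1)))
        ≤ 100 * (H * H * H * (2 * (a * a * X) + (a * K * (N * l / Y) + a * K))) :=
          Nat.mul_le_mul_left _ (Nat.mul_le_mul hm3 (Nat.add_le_add h1 h2))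
      _ = 2 * (100 * (H * H * H * (a * a * X))) + 100 * (H * H * H * (a * K * (N * l / Y))) +
          100 * (H * H * H * (a * K)) := by ring
      _ ≤ _ := by rw [hlK]; omega
  have e6 : 100 * (m * m * ((X + (N * K + 1)) * (N * (N + 1) + 1))) ≤
      l + 100 * (H * H * (a * K * (a * a))) := by
    calc 100 * (m * m * ((X + (N * K + 1)) * (N * (N + 1) + 1)))
        ≤ 100 * (H * H * ((X + a * K) * (a * a))) :=
          Nat.mul_le_mul_left _ (Nat.mul_le_mul hm2 (Nat.mul_le_mul (by omega) hN1))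
      _ = 100 * (H * H * (a * a * X)) + 100 * (H * H * (a * K * (a * a))) := by ring
      _ ≤ 100 * (H * H * H * (a * a * X)) + 100 * (H * H * (a * K * (a * a))) := by
          have := Nat.mul_le_mul_right (a * a * X) hHHH
          omega
      _ = _ := by rw [hlK]
  omega

/-- polynomially bounded functions -/
def Pb (k : ℕ) (f : ℕ → ℕ) : Prop := ∃ C, ∀ H, 0 < H → f H ≤ C * H ^ k

theorem Pb.const (c k : ℕ) : Pb k (fun _ => c) :=
  ⟨c, fun _ hH => Nat.le_mul_of_pos_right _ (pow_pos hH k)⟩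

theorem Pb.mono {k k' : ℕ} {f : ℕ → ℕ} (h : Pb k f) (hk : k ≤ k') : Pb k' f := by
  obtain ⟨C, hC⟩ := h
  exact ⟨C, fun H hH => (hC H hH).trans (Nat.mul_le_mul_left _ (Nat.pow_le_pow_right hH hk))⟩

theorem Pb.id : Pb 1 (fun H => H) := ⟨1, fun H _ => by simp⟩

theorem Pb.add {k : ℕ} {f g : ℕ → ℕ} (h : Pb k f) (h' : Pb k g) : Pb k (fun H => f H + g H) := by
  obtain ⟨C, hC⟩ := h
  obtain ⟨C', hC'⟩ := h'
  exact ⟨C + C', fun H hH => by rw [Nat.add_mul]; exact Nat.add_le_add (hC H hH) (hC' H hH)⟩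

theorem Pb.mul {k k' : ℕ} {f g : ℕ → ℕ} (h : Pb k f) (h' : Pb k' g) :
    Pb (k + k') (fun H => f H * g H) := by
  obtain ⟨C, hC⟩ := h
  obtain ⟨C', hC'⟩ := h'
  exact ⟨C * C', fun H hH => by
    rw [pow_add]
    exact (Nat.mul_le_mul (hC H hH) (hC' H hH)).trans (le_of_eq (by ring))⟩

def cK (N H : ℕ) : ℕ := 100 * (H * H * H) * ((N + 1) * (N + 1))

def cY (N H : ℕ) : ℕ := 100 * ((N + 1) * (N + 1)) * cK N H * (H * H * H)

def cJ (H : ℕ) : ℕ := 100 * (H * H)

def cC (N H : ℕ) : ℕ := 100 * (2 * (H * H * (N + 1)) + H * H * H * (3 * ((N + 1) * (N + 1))) +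
      H * H * (cY N H * (2 * (N + 1)))) + 2 * (100 * (H * H * H * ((N + 1) * cK N H))) +
      2 * (100 * (H * H * ((N + 1) * cK N H * ((N + 1) * (N + 1)))))

def cX (N H : ℕ) : ℕ := cC N H + (cY N H + N * (cK N H * (cJ H * cY N H) + cY N H)) +
  cJ H * cY N H + 2 * cY N H + 1

def cL (N H : ℕ) : ℕ := 8 * (cK N H * cX N H)

theorem Pb_cL (N : ℕ) : Pb 14 (cL N) := by
  have h2 : Pb 2 (fun H => H * H) := Pb.id.mul Pb.id
  have h3 : Pb 3 (fun H => H * H * H) := h2.mul Pb.id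
  have hK : Pb 3 (cK N) := ((Pb.const 100 0).mul h3).mul (Pb.const _ 0)
  have hY : Pb 6 (cY N) := ((Pb.const _ 0).mul hK).mul h3
  have hJ : Pb 2 cJ := (Pb.const 100 0).mul h2
  have hC : Pb 11 (cC N) := by
    refine Pb.add (Pb.add ?_ ?_) ?_
    · refine ((Pb.const 100 0).mul (Pb.add (k := 8) (Pb.add ?_ ?_) ?_)).mono (by omega)
      · exact ((Pb.const 2 0).mul (h2.mul (Pb.const _ 0))).mono (by omega)
      · exact (h3.mul (Pb.const _ 0)).mono (by omega)
      · exact h2.mul (hY.mul (Pb.const _ 0))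
    · exact ((Pb.const 2 0).mul ((Pb.const 100 0).mul (h3.mul ((Pb.const _ 0).mul hK)))).mono
        (by omega)
    · exact ((Pb.const 2 0).mul ((Pb.const 100 0).mul
        (h2.mul (((Pb.const _ 0).mul hK).mul (Pb.const _ 0))))).mono (by omega)
  have hX : Pb 11 (cX N) := by
    refine Pb.add (Pb.add (Pb.add (Pb.add hC (Pb.add (hY.mono (by omega)) ?_)) ?_) ?_)
      (Pb.const 1 11)
    · exact (Pb.const _ 0).mul (Pb.add (hK.mul (hJ.mul hY)) (hY.mono (by omega)))
    · exact (hJ.mul hY).mono (by omega)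
    · exact ((Pb.const 2 0).mul hY).mono (by omega)
  exact (Pb.const 8 0).mul (hK.mul hX)

/-- positions of windows in long power-free words -/
theorem windows (N : ℕ) : ∃ C : ℕ, ∀ h : ℕ, ∃ Λ : ℕ, Λ ≤ C * (h + 1) ^ 14 ∧
    ∀ (I : Type) [Fintype I] [DecidableEq I],
    Fintype.card I ≤ h → ∀ (β : Type) (w : I → ℕ → β), (∀ i, PF N Λ (w i)) →
      ∃ l : ℕ, 0 < l ∧ 4 * l ≤ Λ ∧ ∃ x : I → Fin l,
        (∀ i j, i ≠ j → ¬ Ag (w i) (w j) (l + x i) (l + x j) l) ∧
        (∀ i j, i ≠ j → ¬ Ag (w i) (w j) (2 * l + x i) (2 * l + x j) l) ∧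
        (∀ i j k p, i ≠ j → p ≤ 2 * l → Ag (w k) (w i) p (l + x i) l →
          ¬ Ag (w k) (w j) (l + p) (2 * l + x j) l) ∧
        (∀ i j k d, i ≠ j → 0 < d → d < l → Ag (w k) (w i) (l + x k) (l + d + x i) (l - d) →
          ¬ Ag (w k) (w j) (2 * l - d + x k) (2 * l + x j) d) ∧
        (∀ i j k d, i ≠ j → 0 < d → d < l → Ag (w k) (w i) (2 * l + x k) (2 * l - d + x i) d →
          ¬ Ag (w k) (w j) (2 * l + d + x k) (2 * l + x j) (l - d)) := by
  classical
  obtain ⟨C0, hC0⟩ := Pb_cL N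
  refine ⟨C0, fun h => ⟨cL N (h + 1), hC0 (h + 1) (by omega), ?_⟩⟩
  obtain ⟨H, hH⟩ : ∃ H, H = h + 1 := ⟨_, rfl⟩
  obtain ⟨a, ha⟩ : ∃ a, N + 1 = a := ⟨_, rfl⟩
  obtain ⟨K, hK⟩ : ∃ K, K = 100 * (H * H * H) * (a * a) := ⟨_, rfl⟩
  obtain ⟨Y, hY⟩ : ∃ Y, Y = 100 * (a * a) * K * (H * H * H) := ⟨_, rfl⟩
  obtain ⟨J, hJ⟩ : ∃ J, J = 100 * (H * H) := ⟨_, rfl⟩
  have hHpos : 0 < H := by omega
  have hapos : 0 < a := by omega
  have hKpos : 0 < K := by rw [hK]; positivity
  have hYpos : 0 < Y := by rw [hY]; positivity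
  have hJpos : 0 < J := by rw [hJ]; positivity
  have hK2 : 2 ≤ K := by
    have h1 : 0 < (H * H * H) * (a * a) := by positivity
    rw [hK, Nat.mul_assoc]; omega
  obtain ⟨C, hC⟩ : ∃ C, C = 100 * (2 * (H * H * a) + H * H * H * (3 * (a * a)) +
      H * H * (Y * (2 * a))) + 2 * (100 * (H * H * H * (a * K))) +
      2 * (100 * (H * H * (a * K * (a * a)))) := ⟨_, rfl⟩
  obtain ⟨X0, hX0⟩ : ∃ X0, X0 = C + (Y + N * (K * (J * Y) + Y)) + J * Y + 2 * Y + 1 := ⟨_, rfl⟩
  have hKX0 : X0 ≤ K * X0 := Nat.le_mul_of_pos_left X0 hKpos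
  have hcL : cL N (h + 1) = 8 * (K * X0) := by
    rw [hX0, hC, hY, hJ, hK, ← ha, hH]
    rfl
  rw [hcL]
  intro I _ _ hI β w hw
  obtain ⟨j, hj, B, hB, hB2⟩ := choose_l (β := β) (I := I) (X0 := X0) (K := K) (Y := Y) (J := J) hw
    hKpos hJpos hYpos (by omega) (by omega) le_rfl
  obtain ⟨X, hX⟩ : ∃ X, X = X0 + j * Y := ⟨_, rfl⟩
  rw [← hX] at hB2
  obtain ⟨l, hl⟩ : ∃ l, l = K * X := ⟨_, rfl⟩
  rw [← hl] at hB2
  have hXle : X ≤ 2 * X0 := by
    have h3 : j * Y ≤ J * Y := Nat.mul_le_mul_right Y hj.le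
    omega
  have hX0X : X0 ≤ X := by omega
  have hXpos : 0 < X := by omega
  have hl2 : l ≤ 2 * (K * X0) := by
    rw [hl]
    calc K * X ≤ K * (2 * X0) := Nat.mul_le_mul_left _ hXle
      _ = _ := by ring
  have hlX : 2 * X ≤ l := by rw [hl]; exact Nat.mul_le_mul_right _ hK2
  have hlpos : 0 < l := by omega
  have hΛ : 4 * l ≤ 8 * (K * X0) := by omega
  have hlY : 2 * Y ≤ l := by omega
  -- all bad events
  have s1 := Small.ex (ι := I × I) fun ij => Small.imp (l := l) (p := ij.1 ≠ ij.2)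
    fun hij => ev_A hw hlpos hΛ l (by omega) ij.1 ij.2 hij
  have s2 := Small.ex (ι := I × I) fun ij => Small.imp (l := l) (p := ij.1 ≠ ij.2)
    fun hij => ev_A hw hlpos hΛ (2 * l) le_rfl ij.1 ij.2 hij
  have s3 := Small.ex (ι := I × I × I) fun t => Small.imp (l := l) (p := t.1 ≠ t.2.1)
    fun hij => ev_E hw hlpos hΛ t.1 t.2.1 t.2.2 hij
  have s4 := Small.ex (ι := I × I) fun ij => Small.imp (l := l) (p := ij.1 ≠ ij.2)
    fun hij => ev_F hw hΛ hlY hlpos ij.1 ij.2 hij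
  have s5 := Small.ex (ι := I) fun j => Small.coord (l := l) j B
    (fun T => ∃ d ∈ Finset.Ico (l - Y) l, Ag (w j) (w j) (2 * l - d + T j) (2 * l + T j) d) (by
      intro T
      simp only [Function.update_self]
      exact hB2 j)
  have s6 := Small.ex (ι := I × I × I) fun t => Small.imp (l := l)
    (p := t.1 ≠ t.2.1 ∧ t.2.2 ≠ t.1)
    fun hij => ev_C hw hlpos hΛ hXpos hlX hYpos t.1 t.2.1 t.2.2 hij.1 hij.2
  have s7 := Small.ex (ι := I × I × I) fun t => Small.imp (l := l)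
    (p := t.1 ≠ t.2.1 ∧ t.2.2 ≠ t.2.1)
    fun hij => ev_D hw hlpos hΛ hXpos hlX hYpos t.1 t.2.1 t.2.2 hij.1 hij.2
  have s8 := Small.ex (ι := I × I) fun ij => Small.imp (l := l) (p := ij.1 ≠ ij.2)
    fun hij => ev_C' hw hΛ hXpos ij.1 ij.2 hij
  have s9 := Small.ex (ι := I × I) fun ij => Small.imp (l := l) (p := ij.1 ≠ ij.2)
    fun hij => ev_D' hw hΛ hXpos ij.1 ij.2 hij
  have sall := (((((((s1.or s2).or s3).or s4).or s5).or s6).or s7).or s8).or s9
  obtain ⟨x, hx⟩ := sall.exists_not (by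
    have := arith (H := H) (a := a) (N := N) (m := Fintype.card I) (B := B) (X := X) (X0 := X0)
      (K := K) (Y := Y) (J := J) (l := l) hHpos ha (by omega) hK hY hJ hl hX0X (by omega) hB
      (by omega)
    simp only [Fintype.card_prod, ← Nat.mul_assoc] at this ⊢
    exact this)
  push Not at hx
  obtain ⟨⟨⟨⟨⟨⟨⟨⟨h1, h2⟩, h3⟩, h4⟩, h5⟩, h6⟩, h7⟩, h8⟩, h9⟩ := hx
  refine ⟨l, hlpos, hΛ, x, fun i j hij h => ?_, fun i j hij h => ?_, fun i j k p hij hp h h' => ?_,
    fun i j k d hij hd hdl h h' => ?_, fun i j k d hij hd hdl h h' => ?_⟩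
  · exact h1 (i, j) hij h
  · exact h2 (i, j) hij h
  · exact h3 (i, j, k) hij p hp h h'
  · by_cases hki : k = i
    · subst hki
      refine h8 (k, j) hij d hd hdl ?_ h'
      have e : l + x k + d = l + d + x k := by omega
      show Ag (w k) (w k) (l + x k) (l + x k + d) (l - d)
      rw [e]; exact h
    · by_cases hdY : d < l - Y
      · exact h6 (i, j, k) ⟨hij, hki⟩ d hd hdY h h'
      · by_cases hkj : j = k
        · subst hkj
          exact h5 j d (Finset.mem_Ico.2 ⟨by omega, hdl⟩) h'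
        · exact h4 (j, k) hkj d (Finset.mem_Ico.2 ⟨by omega, hdl⟩) h'
  · by_cases hkj : k = j
    · subst hkj
      refine h9 (i, k) hij d hd hdl ?_ h
      have e : 2 * l + x k + d = 2 * l + d + x k := by omega
      show Ag (w k) (w k) (2 * l + x k) (2 * l + x k + d) (l - d)
      rw [e]; exact h'.symm
    · by_cases hdY : d < l - Y
      · exact h7 (i, j, k) ⟨hij, hkj⟩ d hd hdY h h'
      · by_cases hik : i = k
        · subst hik
          exact h5 i d (Finset.mem_Ico.2 ⟨by omega, hdl⟩) h.symm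
        · exact h4 (k, i) (Ne.symm hik) d (Finset.mem_Ico.2 ⟨by omega, hdl⟩) h.symm

end Vale.Agent.P329.Mark
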