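import Mathlib.Data.Fintype.Pi
import Mathlib.Data.Fintype.BigOperators
import Mathlib.Algebra.BigOperators.Fin
import Mathlib.Algebra.Order.BigOperators.Group.Finset
import Mathlib.Tactic.Ring
import Mathlib.Tactic.Linarith
import Mathlib.Data.Finset.Card
import Mathlib.Data.Set.Card
import Mathlib.Data.Set.Card.Arithmetic

set_option linter.all false

/-!
Choice of windows in long power-free words (counting argument).
-/

namespace Vale.Agent.P329.Mark

section small

theorem ncard_sum {X : Type} [Fintype X] (P : X → Prop) [DecidablePred P] :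
    {x | P x}.ncard = ∑ x, if P x then 1 else 0 := by
  rw [← Finset.card_filter, ← Set.ncard_coe_finset]
  congr 1
  ext x
  simp

variable {I : Type} [Fintype I] [DecidableEq I] {l : ℕ}

/-- the proportion of the choices `T` satisfying `P` is at most `c / l` -/
def Small (c : ℕ) (P : (I → Fin l) → Prop) : Prop :=
  l * {T | P T}.ncard ≤ Fintype.card (I → Fin l) * c

theorem Small.mono {c c' : ℕ} {P Q : (I → Fin l) → Prop} (h : Small c Q) (hc : c ≤ c')
    (hPQ : ∀ T, P T → Q T) : Small c' P := by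
  unfold Small at *
  exact (Nat.mul_le_mul_left l (Set.ncard_le_ncard fun T hT => hPQ T hT)).trans
    (h.trans (Nat.mul_le_mul_left _ hc))

theorem Small.or {c c' : ℕ} {P Q : (I → Fin l) → Prop} (h : Small c P) (h' : Small c' Q) :
    Small (c + c') (fun T => P T ∨ Q T) := by
  unfold Small at *
  have h1 : {T | P T ∨ Q T}.ncard ≤ {T | P T}.ncard + {T | Q T}.ncard :=
    Set.ncard_union_le {T | P T} {T | Q T}
  refine (Nat.mul_le_mul_left l h1).trans ?_
  rw [Nat.mul_add, Nat.mul_add]
  exact Nat.add_le_add h h'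

theorem ncard_ex_le {X ι : Type} [Finite X] (s : Finset ι) (P : ι → X → Prop) :
    {x | ∃ i ∈ s, P i x}.ncard ≤ ∑ i ∈ s, {x | P i x}.ncard := by
  have h := s.set_ncard_biUnion_le (fun i => {x | P i x})
  refine le_trans (Set.ncard_le_ncard ?_) h
  rintro x ⟨i, hi, hx⟩
  simp only [Set.mem_iUnion]
  exact ⟨i, hi, hx⟩

theorem ncard_ex_le_mul {X ι : Type} [Finite X] (s : Finset ι) (P : ι → X → Prop) (c : ℕ)
    (h : ∀ i ∈ s, {x | P i x}.ncard ≤ c) : {x | ∃ i ∈ s, P i x}.ncard ≤ s.card * c := by
  refine (ncard_ex_le s P).trans ((Finset.sum_le_sum h).trans (le_of_eq ?_))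
  rw [Finset.sum_const, smul_eq_mul]

theorem Small.ex {ι : Type} [Fintype ι] {c : ℕ} {P : ι → (I → Fin l) → Prop}
    (h : ∀ i, Small c (P i)) : Small (Fintype.card ι * c) (fun T => ∃ i, P i T) := by
  unfold Small at *
  have h1 : {T | ∃ i, P i T}.ncard ≤ ∑ i, {T | P i T}.ncard := by
    have := ncard_ex_le Finset.univ P
    simpa using this
  refine (Nat.mul_le_mul_left l h1).trans ?_
  rw [Finset.mul_sum]
  refine (Finset.sum_le_sum fun i _ => h i).trans (le_of_eq ?_)
  rw [Finset.sum_const, Finset.card_univ, smul_eq_mul]; ring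

/-- exchange of a coordinate -/
def swapEquiv (i : I) : ((I → Fin l) × Fin l) ≃ ((I → Fin l) × Fin l) where
  toFun y := (Function.update y.1 i y.2, y.1 i)
  invFun y := (Function.update y.1 i y.2, y.1 i)
  left_inv y := by simp
  right_inv y := by simp

theorem Small.coord (i : I) (c : ℕ) (P : (I → Fin l) → Prop)
    (h : ∀ T, {x : Fin l | P (Function.update T i x)}.ncard ≤ c) :
    Small c P := by
  classical
  unfold Small
  have h1 : ∑ y : (I → Fin l) × Fin l, (if P (Function.update y.1 i y.2) then 1 else 0) =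
      ∑ y : (I → Fin l) × Fin l, (if P y.1 then 1 else 0) :=
    (swapEquiv (l := l) i).sum_comp (fun y => if P y.1 then 1 else 0)
  rw [Fintype.sum_prod_type, Fintype.sum_prod_type] at h1
  have h2 : ∑ T : I → Fin l, ∑ x : Fin l, (if P T then 1 else 0) = l * {T | P T}.ncard := by
    simp only [Finset.sum_const, Finset.card_univ, Fintype.card_fin, smul_eq_mul]
    rw [← Finset.mul_sum, ncard_sum]
  have h3 : ∑ T : I → Fin l, ∑ x : Fin l, (if P (Function.update T i x) then 1 else 0) ≤
      ∑ T : I → Fin l, c := by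
    refine Finset.sum_le_sum fun T _ => ?_
    have := h T
    rwa [ncard_sum] at this
  rw [← h2, ← h1]
  refine h3.trans (le_of_eq ?_)
  rw [Finset.sum_const, Finset.card_univ, smul_eq_mul]

theorem Small.exists_not {c : ℕ} {P : (I → Fin l) → Prop} (h : Small c P) (hc : c < l) :
    ∃ T, ¬ P T := by
  by_contra hn
  push Not at hn
  unfold Small at h
  have h1 : {T | P T} = Set.univ := Set.eq_univ_of_forall hn
  rw [h1, Set.ncard_univ, Nat.card_eq_fintype_card] at h
  have hpos : 0 < Fintype.card (I → Fin l) := by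
    rw [Fintype.card_pos_iff]
    exact ⟨fun _ => ⟨0, by omega⟩⟩
  have : Fintype.card (I → Fin l) * c < Fintype.card (I → Fin l) * l :=
    Nat.mul_lt_mul_of_pos_left hc hpos
  rw [mul_comm l] at h
  omega

end small

section agree

variable {β : Type}

/-- agreement of two functions on intervals of length `len` -/
def Ag (f g : ℕ → β) (p q len : ℕ) : Prop := ∀ x < len, f (p + x) = g (q + x)

theorem Ag.symm {f g : ℕ → β} {p q len : ℕ} (h : Ag f g p q len) : Ag g f q p len :=
  fun x hx => (h x hx).symm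

theorem Ag.mono {f g : ℕ → β} {p q len len' : ℕ} (h : Ag f g p q len) (hl : len' ≤ len) :
    Ag f g p q len' := fun x hx => h x (by omega)

theorem Ag.trans {f g k : ℕ → β} {p q r len : ℕ} (h : Ag f g p q len) (h' : Ag g k q r len) :
    Ag f k p r len := fun x hx => (h x hx).trans (h' x hx)

/-- power-freeness: a factor with period `d` is shorter than `(N + 1) * d` -/
def PF (N Λ : ℕ) (f : ℕ → β) : Prop :=
  ∀ p d len, 0 < d → p + d + len ≤ Λ → Ag f f p (p + d) len → len < N * d

/-- well spaced sets are small -/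
theorem spacing {S : Finset ℕ} {M len N : ℕ} (hlen : 0 < len) (h1 : ∀ p ∈ S, p < M)
    (h2 : ∀ p ∈ S, ∀ p' ∈ S, p < p' → len ≤ N * (p' - p)) : S.card ≤ N * M / len + 1 := by
  have h3 : S.card ≤ (Finset.range (N * M / len + 1)).card := by
    apply Finset.card_le_card_of_injOn (fun p => N * p / len)
    · intro p hp
      rw [Finset.coe_range, Set.mem_Iio]
      have := h1 p hp
      exact Nat.lt_succ_of_le (Nat.div_le_div_right (Nat.mul_le_mul_left N this.le))
    · have key : ∀ p ∈ S, ∀ p' ∈ S, p < p' → N * p / len < N * p' / len := by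
        intro p hp p' hp' hlt
        have h4 := h2 p hp p' hp' hlt
        have h5 : N * p' = N * p + N * (p' - p) := by
          rw [← Nat.mul_add]; congr 1; omega
        have h6 : N * p + len ≤ N * p' := by omega
        have h7 : (N * p + len) / len ≤ N * p' / len := Nat.div_le_div_right h6
        rw [Nat.add_div_right _ hlen] at h7
        omega
      intro p hp p' hp' he
      rcases lt_trichotomy p p' with h | h | h
      · exact absurd he (key p hp p' hp' h).ne
      · exact h
      · exact absurd he (key p' hp' p hp h).ne'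
  rwa [Finset.card_range] at h3

theorem spacing_fin {l len N : ℕ} (P : Fin l → Prop) (hlen : 0 < len)
    (h2 : ∀ x y : Fin l, P x → P y → x < y → len ≤ N * (y.val - x.val)) :
    {x | P x}.ncard ≤ N * l / len + 1 := by
  classical
  have h1 : {x | P x}.ncard =
      ((Finset.univ.filter P).map Fin.valEmbedding).card := by
    rw [Finset.card_map, ← Set.ncard_coe_finset]
    congr 1
    ext x
    simp
  rw [h1]
  apply spacing hlen
  · intro p hp
    obtain ⟨x, -, rfl⟩ := Finset.mem_map.1 hp
    exact x.isLt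
  · intro p hp p' hp' hlt
    obtain ⟨x, hx, rfl⟩ := Finset.mem_map.1 hp
    obtain ⟨y, hy, rfl⟩ := Finset.mem_map.1 hp'
    exact h2 x y (Finset.mem_filter.1 hx).2 (Finset.mem_filter.1 hy).2 hlt

/-- number of occurrences in a window -/
theorem occ {f g : ℕ → β} {N Λ l A q len : ℕ} (hf : PF N Λ f) (hlen : 0 < len)
    (hA : A + l + len ≤ Λ) :
    {x : Fin l | Ag f g (A + x) q len}.ncard ≤ N * l / len + 1 := by
  apply spacing_fin _ hlen
  intro x y hx hy hxy
  have hxy' : x.val < y.val := hxy
  have h1 : Ag f f (A + x) (A + x + (y.val - x.val)) len := by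
    have e : A + x + (y.val - x.val) = A + y := by omega
    rw [e]
    exact hx.trans hy.symm
  have hy' := y.isLt
  exact (hf _ _ _ (by omega) (by omega) h1).le

theorem occ' {f g : ℕ → β} {N Λ l A q len : ℕ} (hf : PF N Λ f) (hlen : 0 < len)
    (hA : A + l + len ≤ Λ) :
    {x : Fin l | Ag g f q (A + x) len}.ncard ≤ N * l / len + 1 := by
  have h := occ (g := g) (q := q) hf hlen hA
  have e : {x : Fin l | Ag g f q (A + x) len} = {x : Fin l | Ag f g (A + x) q len} := by
    ext x
    exact ⟨Ag.symm, Ag.symm⟩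
  rwa [e]

theorem near {f g : ℕ → β} {N Λ l X c q : ℕ} (hf : PF N Λ f) (hX : 0 < X)
    (hc : 2 * l + c ≤ Λ) (D : Finset ℕ) (hD : ∀ d ∈ D, X ≤ d ∧ d < l ∧ Ag g f q (2 * l - d + c) d) :
    D.card ≤ N * l / X + 1 := by
  apply spacing hX
  · intro d hd
    exact (hD d hd).2.1
  · intro d hd d' hd' hlt
    obtain ⟨h1, h2, h3⟩ := hD d hd
    obtain ⟨h4, h5, h6⟩ := hD d' hd'
    have h7 : Ag f f (2 * l - d' + c) (2 * l - d' + c + (d' - d)) d := by
      have e : 2 * l - d' + c + (d' - d) = 2 * l - d + c := by omega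
      rw [e]
      exact (h6.mono hlt.le).symm.trans h3
    have h8 := hf _ _ _ (by omega) (by omega) h7
    exact h1.trans h8.le

theorem per {f : ℕ → β} {N Λ l X b : ℕ} (hf : PF N Λ f) (hX : 0 < X)
    (hb : b + l ≤ Λ) (D : Finset ℕ) (hD : ∀ d ∈ D, 0 < d ∧ d < l ∧ Ag f f b (b + d) (l - d)) :
    D.card ≤ X + (N * l / X + 1) := by
  classical
  have h1 : D.card = (D.filter fun d => l - d < X).card + (D.filter fun d => ¬ l - d < X).card :=
    (Finset.card_filter_add_card_filter_not _).symm
  rw [h1]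
  apply Nat.add_le_add
  · have h2 : (D.filter fun d => l - d < X).card ≤ (Finset.range X).card := by
      apply Finset.card_le_card_of_injOn (fun d => l - d)
      · intro d hd
        rw [Finset.coe_filter] at hd
        simpa using hd.2
      · intro d hd d' hd' he
        rw [Finset.coe_filter] at hd hd'
        have := hD d hd.1
        have := hD d' hd'.1
        simp only at he
        omega
    rwa [Finset.card_range] at h2
  · apply spacing hX
    · intro d hd
      exact (hD d (Finset.mem_filter.1 hd).1).2.1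
    · intro d hd d' hd' hlt
      obtain ⟨h2, h3⟩ := Finset.mem_filter.1 hd
      obtain ⟨h4, h5⟩ := Finset.mem_filter.1 hd'
      obtain ⟨h6, h7, h8⟩ := hD d h2
      obtain ⟨h9, h10, h11⟩ := hD d' h4
      have h12 : Ag f f (b + d) (b + d + (d' - d)) (l - d') := by
        have e : b + d + (d' - d) = b + d' := by omega
        rw [e]
        exact (h8.mono (by omega)).symm.trans h11
      have h13 := hf _ _ _ (by omega) (by omega) h12
      omega

theorem per_le {f : ℕ → β} {N Λ l b d : ℕ} (hf : PF N Λ f) (hb : b + l ≤ Λ) (hd : 0 < d)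
    (hdl : d < l) (h : Ag f f b (b + d) (l - d)) : l ≤ (N + 1) * d := by
  have := hf b d (l - d) hd (by omega) h
  rw [Nat.add_mul, one_mul]
  omega

end agree

section events

variable {β I : Type} [Fintype I] [DecidableEq I] {w : I → ℕ → β} {N Λ l X Y : ℕ}

theorem Small.imp {c : ℕ} {p : Prop} {P : (I → Fin l) → Prop} (h : p → Small c P) :
    Small c (fun T => p ∧ P T) := by
  by_cases hp : p
  · exact (h hp).mono le_rfl fun T hT => hT.2
  · unfold Small
    have : {T : I → Fin l | p ∧ P T} = ∅ := by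
      ext T; simp [hp]
    rw [this, Set.ncard_empty, mul_zero]
    exact Nat.zero_le _

theorem ev_A (hw : ∀ i, PF N Λ (w i)) (hl : 0 < l) (hΛ : 4 * l ≤ Λ) (a : ℕ) (ha : a ≤ 2 * l)
    (i j : I) (hij : i ≠ j) :
    Small (l := l) (N + 1) (fun T => Ag (w i) (w j) (a + T i) (a + T j) l) := by
  apply Small.coord i
  intro T
  simp only [Function.update_self, Function.update_of_ne hij.symm]
  have h := occ (g := w j) (q := a + T j) (l := l) (A := a) (hw i) hl (by omega)
  rwa [Nat.mul_div_cancel _ hl] at h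

theorem ev_E (hw : ∀ i, PF N Λ (w i)) (hl : 0 < l) (hΛ : 4 * l ≤ Λ) (i j k : I) (hij : i ≠ j) :
    Small (l := l) ((3 * N + 1) * (N + 1)) (fun T => ∃ p, p ≤ 2 * l ∧
      Ag (w k) (w i) p (l + T i) l ∧ Ag (w k) (w j) (l + p) (2 * l + T j) l) := by
  classical
  apply Small.coord i
  intro T
  simp only [Function.update_self, Function.update_of_ne hij.symm]
  set S := (Finset.range (2 * l + 1)).filter
    (fun p => Ag (w k) (w j) (l + p) (2 * l + T j) l) with hS
  have h1 : S.card ≤ 3 * N + 1 := by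
    have h2 : S.card ≤ N * (2 * l + 1) / l + 1 := by
      apply spacing hl
      · intro p hp
        exact Finset.mem_range.1 (Finset.mem_filter.1 hp).1
      · intro p hp p' hp' hlt
        have h3 := (Finset.mem_filter.1 hp).2
        have h4 := (Finset.mem_filter.1 hp').2
        have h5 := Finset.mem_range.1 (Finset.mem_filter.1 hp').1
        have h6 : Ag (w k) (w k) (l + p) (l + p + (p' - p)) l := by
          have e : l + p + (p' - p) = l + p' := by omega
          rw [e]
          exact h3.trans h4.symm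
        exact (hw k _ _ _ (by omega) (by omega) h6).le
    have h7 : N * (2 * l + 1) / l ≤ 3 * N := by
      apply Nat.div_le_of_le_mul
      calc N * (2 * l + 1) ≤ N * (3 * l) := Nat.mul_le_mul_left _ (by omega)
        _ = l * (3 * N) := by ring
    omega
  have h8 : {x : Fin l | ∃ p, p ≤ 2 * l ∧ Ag (w k) (w i) p (l + x) l ∧
      Ag (w k) (w j) (l + p) (2 * l + T j) l}.ncard ≤ S.card * (N + 1) := by
    refine le_trans (Set.ncard_le_ncard ?_) (ncard_ex_le_mul (X := Fin l) S
      (fun p x => Ag (w k) (w i) p (l + x) l) (N + 1) ?_)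
    · rintro x ⟨p, hp, h9, h10⟩
      exact ⟨p, by rw [hS, Finset.mem_filter, Finset.mem_range]; exact ⟨by omega, h10⟩, h9⟩
    · intro p hp
      have h := occ' (g := w k) (q := p) (l := l) (A := l) (hw i) hl (by omega)
      rwa [Nat.mul_div_cancel _ hl] at h
  exact h8.trans (Nat.mul_le_mul_right _ h1)

theorem ev_F (hw : ∀ i, PF N Λ (w i)) (hΛ : 4 * l ≤ Λ) (hY : 2 * Y ≤ l) (hl : 0 < l)
    (j k : I) (hjk : j ≠ k) :
    Small (l := l) (Y * (2 * N + 1)) (fun T => ∃ d ∈ Finset.Ico (l - Y) l,
      Ag (w k) (w j) (2 * l - d + T k) (2 * l + T j) d) := by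
  apply Small.coord j
  intro T
  simp only [Function.update_self, Function.update_of_ne hjk.symm]
  have h1 := ncard_ex_le_mul (X := Fin l) (Finset.Ico (l - Y) l)
    (fun d x => Ag (w k) (w j) (2 * l - d + T k) (2 * l + x) d) (2 * N + 1) (by
      intro d hd
      rw [Finset.mem_Ico] at hd
      have h := occ' (g := w k) (q := 2 * l - d + T k) (l := l) (A := 2 * l) (len := d) (hw j)
        (by omega) (by omega)
      refine h.trans ?_
      have : N * l / d ≤ 2 * N := by
        apply Nat.div_le_of_le_mul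
        calc N * l ≤ N * (2 * d) := Nat.mul_le_mul_left _ (by omega)
          _ = d * (2 * N) := by ring
      omega)
  refine h1.trans (Nat.mul_le_mul_right _ ?_)
  rw [Nat.card_Ico]
  omega

/-- a moving window of length `l - d` together with a set `D` of shifts -/
theorem cover_bound {f g : ℕ → β} (hf : PF N Λ f) (hl : 0 < l) (hX : 0 < X) (hX2 : 2 * X ≤ l)
    (hY : 0 < Y) (A q : ℕ → ℕ) (hA : ∀ d, d < l → A d + l + (l - d) ≤ Λ) (D : Finset ℕ)
    (hD : ∀ d ∈ D, 0 < d ∧ d < l - Y) (hD2 : (D.filter fun d => X ≤ d).card ≤ N * l / X + 1) :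
    {x : Fin l | ∃ d ∈ D, Ag g f (q d) (A d + x) (l - d)}.ncard ≤
      X * (2 * N + 1) + (N * l / X + 1) * (N * l / Y + 1) := by
  classical
  have h1 : {x : Fin l | ∃ d ∈ D, Ag g f (q d) (A d + x) (l - d)} =
      {x : Fin l | ∃ d ∈ D.filter (fun d => ¬ X ≤ d), Ag g f (q d) (A d + x) (l - d)} ∪
      {x : Fin l | ∃ d ∈ D.filter (fun d => X ≤ d), Ag g f (q d) (A d + x) (l - d)} := by
    ext x
    simp only [Set.mem_union, Set.mem_ofPred_eq, Finset.mem_filter]
    constructor
    · rintro ⟨d, hd, h⟩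
      by_cases hdX : X ≤ d
      · exact Or.inr ⟨d, ⟨hd, hdX⟩, h⟩
      · exact Or.inl ⟨d, ⟨hd, hdX⟩, h⟩
    · rintro (⟨d, ⟨hd, -⟩, h⟩ | ⟨d, ⟨hd, -⟩, h⟩)
      · exact ⟨d, hd, h⟩
      · exact ⟨d, hd, h⟩
  rw [h1]
  refine (Set.ncard_union_le _ _).trans (Nat.add_le_add ?_ ?_)
  · have h2 := ncard_ex_le_mul (X := Fin l) (D.filter (fun d => ¬ X ≤ d))
      (fun d x => Ag g f (q d) (A d + x) (l - d)) (2 * N + 1) (by
        intro d hd
        obtain ⟨hd1, hd2⟩ := Finset.mem_filter.1 hd
        have h := occ' (g := g) (q := q d) (l := l) (A := A d) (len := l - d) hf (by omega)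
          (hA d (by omega))
        refine h.trans ?_
        have : N * l / (l - d) ≤ 2 * N := by
          apply Nat.div_le_of_le_mul
          calc N * l ≤ N * (2 * (l - d)) := Nat.mul_le_mul_left _ (by omega)
            _ = (l - d) * (2 * N) := by ring
        omega)
    refine h2.trans (Nat.mul_le_mul_right _ ?_)
    have h3 : (D.filter (fun d => ¬ X ≤ d)).card ≤ (Finset.range X).card := by
      apply Finset.card_le_card
      intro d hd
      have := (Finset.mem_filter.1 hd).2
      rw [Finset.mem_range]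
      omega
    rwa [Finset.card_range] at h3
  · have h2 := ncard_ex_le_mul (X := Fin l) (D.filter (fun d => X ≤ d))
      (fun d x => Ag g f (q d) (A d + x) (l - d)) (N * l / Y + 1) (by
        intro d hd
        obtain ⟨hd1, hd2⟩ := Finset.mem_filter.1 hd
        have := hD d hd1
        have h := occ' (g := g) (q := q d) (l := l) (A := A d) (len := l - d) hf (by omega)
          (hA d (by omega))
        refine h.trans ?_
        have : N * l / (l - d) ≤ N * l / Y := Nat.div_le_div_left (by omega) hY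
        omega)
    exact h2.trans (Nat.mul_le_mul_right _ hD2)

theorem ev_C (hw : ∀ i, PF N Λ (w i)) (hl : 0 < l) (hΛ : 4 * l ≤ Λ) (hX : 0 < X)
    (hX2 : 2 * X ≤ l) (hY : 0 < Y) (i j k : I) (hij : i ≠ j) (hki : k ≠ i) :
    Small (l := l) (X * (2 * N + 1) + (N * l / X + 1) * (N * l / Y + 1))
      (fun T => ∃ d, 0 < d ∧ d < l - Y ∧ Ag (w k) (w i) (l + T k) (l + d + T i) (l - d) ∧
        Ag (w k) (w j) (2 * l - d + T k) (2 * l + T j) d) := by
  classical
  apply Small.coord i
  intro T
  simp only [Function.update_self, Function.update_of_ne hij.symm, Function.update_of_ne hki]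
  set D := (Finset.range (l - Y)).filter
    (fun d => 0 < d ∧ Ag (w k) (w j) (2 * l - d + T k) (2 * l + T j) d) with hDdef
  have hTk := (T k).isLt
  refine le_trans (Set.ncard_le_ncard ?_) (cover_bound (f := w i) (g := w k) (hw i) hl hX hX2 hY
    (fun d => l + d) (fun _ => l + T k) (by intro d hd; omega) D ?_ ?_)
  · rintro x ⟨d, h1, h2, h3, h4⟩
    exact ⟨d, by rw [hDdef, Finset.mem_filter, Finset.mem_range]; exact ⟨h2, h1, h4⟩, h3⟩
  · intro d hd
    rw [hDdef, Finset.mem_filter, Finset.mem_range] at hd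
    exact ⟨hd.2.1, hd.1⟩
  · apply near (f := w k) (g := w j) (c := T k) (q := 2 * l + T j) (hw k) hX (by omega)
    intro d hd
    rw [Finset.mem_filter, hDdef, Finset.mem_filter, Finset.mem_range] at hd
    exact ⟨hd.2, by omega, hd.1.2.2.symm⟩

theorem ev_D (hw : ∀ i, PF N Λ (w i)) (hl : 0 < l) (hΛ : 4 * l ≤ Λ) (hX : 0 < X)
    (hX2 : 2 * X ≤ l) (hY : 0 < Y) (i j k : I) (hij : i ≠ j) (hkj : k ≠ j) :
    Small (l := l) (X * (2 * N + 1) + (N * l / X + 1) * (N * l / Y + 1))
      (fun T => ∃ d, 0 < d ∧ d < l - Y ∧ Ag (w k) (w i) (2 * l + T k) (2 * l - d + T i) d ∧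
        Ag (w k) (w j) (2 * l + d + T k) (2 * l + T j) (l - d)) := by
  classical
  apply Small.coord j
  intro T
  simp only [Function.update_self, Function.update_of_ne hij, Function.update_of_ne hkj]
  set D := (Finset.range (l - Y)).filter
    (fun d => 0 < d ∧ Ag (w k) (w i) (2 * l + T k) (2 * l - d + T i) d) with hDdef
  have hTi := (T i).isLt
  refine le_trans (Set.ncard_le_ncard ?_) (cover_bound (f := w j) (g := w k) (hw j) hl hX hX2 hY
    (fun _ => 2 * l) (fun d => 2 * l + d + T k) (by intro d hd; omega) D ?_ ?_)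
  · rintro x ⟨d, h1, h2, h3, h4⟩
    exact ⟨d, by rw [hDdef, Finset.mem_filter, Finset.mem_range]; exact ⟨h2, h1, h3⟩, h4⟩
  · intro d hd
    rw [hDdef, Finset.mem_filter, Finset.mem_range] at hd
    exact ⟨hd.2.1, hd.1⟩
  · apply near (f := w i) (g := w k) (c := T i) (q := 2 * l + T k) (hw i) hX (by omega)
    intro d hd
    rw [Finset.mem_filter, hDdef, Finset.mem_filter, Finset.mem_range] at hd
    exact ⟨hd.2, by omega, hd.1.2.2⟩

/-- periods of a window -/
theorem per_bound {f g f' : ℕ → β} (hf : PF N Λ f) (hf' : PF N Λ f') (hX : 0 < X) (b : ℕ)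
    (hb : b + l ≤ Λ) (A q : ℕ → ℕ) (hA : ∀ d, d < l → A d + l + d ≤ Λ) :
    {x : Fin l | ∃ d, 0 < d ∧ d < l ∧ Ag f' f' b (b + d) (l - d) ∧
      Ag g f (q d) (A d + x) d}.ncard ≤ (X + (N * l / X + 1)) * (N * (N + 1) + 1) := by
  classical
  set D := (Finset.range l).filter (fun d => 0 < d ∧ Ag f' f' b (b + d) (l - d)) with hD
  have h1 := ncard_ex_le_mul (X := Fin l) D (fun d x => Ag g f (q d) (A d + x) d)
    (N * (N + 1) + 1) (by
      intro d hd
      rw [hD, Finset.mem_filter, Finset.mem_range] at hd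
      obtain ⟨hd1, hd2, hd3⟩ := hd
      have h := occ' (g := g) (q := q d) (l := l) (A := A d) (len := d) hf hd2 (hA d hd1)
      refine h.trans ?_
      have h2 := per_le hf' hb hd2 hd1 hd3
      have : N * l / d ≤ N * (N + 1) := by
        apply Nat.div_le_of_le_mul
        calc N * l ≤ N * ((N + 1) * d) := Nat.mul_le_mul_left _ h2
          _ = d * (N * (N + 1)) := by ring
      omega)
  have h3 : D.card ≤ X + (N * l / X + 1) := by
    apply per hf' hX hb
    intro d hd
    rw [hD, Finset.mem_filter, Finset.mem_range] at hd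
    exact ⟨hd.2.1, hd.1, hd.2.2⟩
  refine le_trans (Set.ncard_le_ncard ?_) (h1.trans (Nat.mul_le_mul_right _ h3))
  rintro x ⟨d, h4, h5, h6, h7⟩
  exact ⟨d, by rw [hD, Finset.mem_filter, Finset.mem_range]; exact ⟨h5, h4, h6⟩, h7⟩

theorem ev_C' (hw : ∀ i, PF N Λ (w i)) (hΛ : 4 * l ≤ Λ) (hX : 0 < X) (i j : I) (hij : i ≠ j) :
    Small (l := l) ((X + (N * l / X + 1)) * (N * (N + 1) + 1))
      (fun T => ∃ d, 0 < d ∧ d < l ∧ Ag (w i) (w i) (l + T i) (l + T i + d) (l - d) ∧
        Ag (w i) (w j) (2 * l - d + T i) (2 * l + T j) d) := by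
  apply Small.coord j
  intro T
  simp only [Function.update_self, Function.update_of_ne hij]
  have hTi := (T i).isLt
  exact per_bound (f := w j) (g := w i) (f' := w i) (hw j) (hw i) hX (l + T i) (by omega)
    (fun _ => 2 * l) (fun d => 2 * l - d + T i) (by intro d hd; omega)

theorem ev_D' (hw : ∀ i, PF N Λ (w i)) (hΛ : 4 * l ≤ Λ) (hX : 0 < X) (i j : I) (hij : i ≠ j) :
    Small (l := l) ((X + (N * l / X + 1)) * (N * (N + 1) + 1))
      (fun T => ∃ d, 0 < d ∧ d < l ∧ Ag (w j) (w j) (2 * l + T j) (2 * l + T j + d) (l - d) ∧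
        Ag (w j) (w i) (2 * l + T j) (2 * l - d + T i) d) := by
  apply Small.coord i
  intro T
  simp only [Function.update_self, Function.update_of_ne hij.symm]
  have hTj := (T j).isLt
  exact per_bound (f := w i) (g := w j) (f' := w j) (hw i) (hw j) hX (2 * l + T j) (by omega)
    (fun d => 2 * l - d) (fun _ => 2 * l + T j) (by intro d hd; omega)

end events

end Vale.Agent.P329.Mark
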