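import Mathlib.Algebra.BigOperators.Intervals
import Mathlib.Algebra.BigOperators.Group.Finset.Basic
import Vale.Agent.P329.Bdl.B1

set_option linter.all false

/-!
Evaluation of regular languages on words containing long markers: the junction system.
-/

namespace Vale.Agent.P329.Mark

open Vale.Agent.P329 Vale.Agent.P329.Slow

section act

variable {α V : Type} [AddCommGroup V] (M : α → V →+ V)

theorem act_nil (x : V) : act M [] x = x := rfl

theorem act_append (u v : List α) (x : V) : act M (u ++ v) x = act M v (act M u x) :=
  List.foldl_append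

theorem act_add (w : List α) (x y : V) : act M w (x + y) = act M w x + act M w y := by
  induction w generalizing x y with
  | nil => rfl
  | cons a w ih =>
    show act M w (M a (x + y)) = act M w (M a x) + act M w (M a y)
    rw [map_add, ih]

theorem act_zero (w : List α) : act M w (0 : V) = 0 := by
  have h := act_add M w 0 0
  rw [add_zero] at h
  exact left_eq_add.1 h

theorem act_sub (w : List α) (x y : V) : act M w (x - y) = act M w x - act M w y := by
  have h := act_add M w (x - y) y
  rw [sub_add_cancel] at h
  rw [h, add_sub_cancel_right]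

theorem act_sum {ι : Type} (s : Finset ι) (w : List α) (f : ι → V) :
    act M w (∑ i ∈ s, f i) = ∑ i ∈ s, act M w (f i) := by
  classical
  induction s using Finset.induction_on with
  | empty => simp [act_zero]
  | insert a s ha ih => rw [Finset.sum_insert ha, Finset.sum_insert ha, act_add, ih]

end act

section lists

variable {α : Type}

/-- a suffix of `p ++ y` which is not longer than `y` is a suffix of `y` -/
theorem suffix_of_le {l p y : List α} (h : l <:+ p ++ y) (hl : l.length ≤ y.length) : l <:+ y :=
  List.suffix_of_suffix_length_le h (List.suffix_append p y) hl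

theorem prefix_of_le {l y z : List α} (h : l <+: y ++ z) (hl : l.length ≤ y.length) : l <+: y :=
  List.prefix_of_prefix_length_le h (List.prefix_append y z) hl

/-- two windows at distance `|y|` on the left -/
theorem left_overlap {n : ℕ} {A B p y : List α} (hA : A.length = n) (hB : B.length = n)
    (h1 : A <:+ p) (h2 : B <:+ p ++ y) (hy : y.length ≤ n) : B = A.drop y.length ++ y := by
  have h3 : A ++ y <:+ p ++ y := by
    obtain ⟨t, rfl⟩ := h1
    exact ⟨t, by simp⟩
  have h4 : B <:+ A ++ y := List.suffix_of_suffix_length_le h2 h3 (by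
    rw [List.length_append]; omega)
  obtain ⟨t, ht⟩ := h4
  have h5 : t.length = y.length := by
    have := congrArg List.length ht
    rw [List.length_append, List.length_append] at this
    omega
  have h6 := congrArg (List.drop t.length) ht
  rw [List.drop_left, List.drop_append_of_le_length (by omega)] at h6
  rw [h6, h5]

/-- two windows at distance `|y|` on the right -/
theorem right_overlap {n : ℕ} {A B y z : List α} (hA : A.length = n) (hB : B.length = n)
    (h1 : A <+: y ++ z) (h2 : B <+: z) (hy : y.length ≤ n) : A = y ++ B.take (n - y.length) := by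
  have h3 : y ++ B <+: y ++ z := (List.prefix_append_right_inj y).2 h2
  have h4 : A <+: y ++ B := List.prefix_of_prefix_length_le h1 h3 (by
    rw [List.length_append]; omega)
  have h5 := List.prefix_iff_eq_take.1 h4
  rw [hA, List.take_append, List.take_of_length_le hy] at h5
  exact h5

theorem suffix_eq_drop {A y : List α} (h : y <:+ A) : y = A.drop (A.length - y.length) :=
  List.suffix_iff_eq_drop.1 h

end lists

section sys

variable {α V ι : Type} [AddCommGroup V] (M : α → V →+ V)
variable (n : ℕ) (L R : ι → List α) (val : ι → V)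

/-- A system of windows: names `i` with a left window `L i` and a right window `R i`. -/
structure Sys : Prop where
  pos : 0 < n
  lenL : ∀ i, (L i).length = n
  lenR : ∀ i, (R i).length = n
  injL : ∀ i j, L i = L j → i = j
  injR : ∀ i j, R i = R j → i = j
  ovL : ∀ i j k d, i ≠ j → 0 < d → d < n → L k ≠ (L i).drop d ++ (R j).take d
  ovR : ∀ i j k d, i ≠ j → 0 < d → d < n → R k ≠ (L i).drop (n - d) ++ (R j).take (n - d)

open Classical in
/-- the jump at the junction of `p` and `z` -/
noncomputable def J (p z : List α) : V :=
  if h : ∃ ij : ι × ι, L ij.1 <:+ p ∧ R ij.2 <+: z then val h.choose.2 - val h.choose.1 else 0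

/-- the sum of the transported jumps -/
noncomputable def Th (w : List α) : V :=
  ∑ t ∈ Finset.range (w.length + 1), act M (w.drop t) (J L R val (w.take t) (w.drop t))

/-- the value of the strand `x` -/
noncomputable def E (w : List α) (x : V) : V := act M w x + Th M L R val w

variable {M n L R val}

theorem J_none {p z : List α} (h : ∀ i j, L i <:+ p → ¬ R j <+: z) : J L R val p z = 0 := by
  rw [J, dif_neg]
  rintro ⟨⟨i, j⟩, h1, h2⟩
  exact h i j h1 h2

theorem Sys.uniqL (S : Sys n L R) {i j : ι} {p : List α} (h1 : L i <:+ p) (h2 : L j <:+ p) :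
    i = j :=
  S.injL i j ((List.suffix_of_suffix_length_le h1 h2 (by rw [S.lenL, S.lenL])).eq_of_length
    (by rw [S.lenL, S.lenL]))

theorem Sys.uniqR (S : Sys n L R) {i j : ι} {p : List α} (h1 : R i <+: p) (h2 : R j <+: p) :
    i = j :=
  S.injR i j ((List.prefix_of_prefix_length_le h1 h2 (by rw [S.lenR, S.lenR])).eq_of_length
    (by rw [S.lenR, S.lenR]))

theorem Sys.J_some (S : Sys n L R) {i j : ι} {p z : List α} (h1 : L i <:+ p) (h2 : R j <+: z) :
    J L R val p z = val j - val i := by
  have h : ∃ ij : ι × ι, L ij.1 <:+ p ∧ R ij.2 <+: z := ⟨(i, j), h1, h2⟩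
  rw [J, dif_pos h]
  have h3 := h.choose_spec
  rw [S.uniqL h1 h3.1, S.uniqR h2 h3.2]

theorem Sys.J_eq (S : Sys n L R) {p z p' z' : List α}
    (h1 : ∀ i, L i <:+ p ↔ L i <:+ p') (h2 : ∀ j, R j <+: z ↔ R j <+: z') :
    J L R val p z = J L R val p' z' := by
  by_cases h : ∃ ij : ι × ι, L ij.1 <:+ p ∧ R ij.2 <+: z
  · obtain ⟨⟨i, j⟩, h3, h4⟩ := h
    rw [S.J_some h3 h4, S.J_some ((h1 i).1 h3) ((h2 j).1 h4)]
  · rw [J_none fun i j h3 h4 => h ⟨(i, j), h3, h4⟩,
      J_none fun i j h3 h4 => h ⟨(i, j), (h1 i).2 h3, (h2 j).2 h4⟩]

/-- a junction shortly before a junction has jump zero -/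
theorem Sys.J_before (S : Sys n L R) {i j : ι} {p y z : List α}
    (h1 : L i <:+ p ++ y) (h2 : R j <+: z) (hy : 0 < y.length) :
    J L R val p (y ++ z) = J L R val p y := by
  by_cases hn : n ≤ y.length
  · apply S.J_eq (fun _ => Iff.rfl)
    intro k
    exact ⟨fun h => prefix_of_le h (by rw [S.lenR]; exact hn), fun h => h.trans (List.prefix_append _ _)⟩
  · push Not at hn
    rw [J_none (p := p) (z := y) (fun i' j' _ h => by
      have := h.length_le
      rw [S.lenR] at this
      omega)]
    by_cases h : ∃ ij : ι × ι, L ij.1 <:+ p ∧ R ij.2 <+: y ++ z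
    · obtain ⟨⟨i', j'⟩, h3, h4⟩ := h
      simp only at h3 h4
      have h5 : i' = j' := by
        by_contra hne
        refine S.ovL i' j' i y.length hne hy hn ?_
        have h6 := left_overlap (S.lenL i') (S.lenL i) h3 h1 hn.le
        have h7 : (R j').take y.length = y := by
          have h8 := right_overlap (S.lenR j') (S.lenR j) h4 h2 hn.le
          rw [h8, List.take_left]
        rw [h6, h7]
      rw [S.J_some h3 h4, h5, sub_self]
    · exact J_none fun i' j' h3 h4 => h ⟨(i', j'), h3, h4⟩

/-- a junction shortly after a junction has jump zero -/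
theorem Sys.J_after (S : Sys n L R) {i j : ι} {u y z : List α}
    (h1 : L i <:+ u) (h2 : R j <+: y ++ z) (hy : 0 < y.length) :
    J L R val (u ++ y) z = J L R val y z := by
  by_cases hn : n ≤ y.length
  · apply S.J_eq _ (fun _ => Iff.rfl)
    intro k
    exact ⟨fun h => suffix_of_le h (by rw [S.lenL]; exact hn), fun h => h.trans (List.suffix_append _ _)⟩
  · push Not at hn
    rw [J_none (p := y) (z := z) (fun i' j' h _ => by
      have := h.length_le
      rw [S.lenL] at this
      omega)]
    by_cases h : ∃ ij : ι × ι, L ij.1 <:+ u ++ y ∧ R ij.2 <+: z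
    · obtain ⟨⟨i', j'⟩, h3, h4⟩ := h
      simp only at h3 h4
      have h5 : i' = j' := by
        by_contra hne
        refine S.ovR i' j' j y.length hne hy hn ?_
        have h6 := right_overlap (S.lenR j) (S.lenR j') h2 h4 hn.le
        have h7 : (L i').drop (n - y.length) = y := by
          have h8 : y <:+ L i' := List.suffix_of_suffix_length_le (List.suffix_append u y) h3 (by
            rw [S.lenL]; exact hn.le)
          have h9 := suffix_eq_drop h8
          rw [S.lenL] at h9
          exact h9.symm
        rw [h6, h7]
      rw [S.J_some h3 h4, h5, sub_self]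
    · exact J_none fun i' j' h3 h4 => h ⟨(i', j'), h3, h4⟩

theorem J_nil_left (S : Sys n L R) (z : List α) : J L R val [] z = 0 :=
  J_none fun i _ h _ => by
    have := h.length_le
    rw [S.lenL, List.length_nil] at this
    have := S.pos
    omega

theorem J_nil_right (S : Sys n L R) (p : List α) : J L R val p [] = 0 :=
  J_none fun _ j _ h => by
    have := h.length_le
    rw [S.lenR, List.length_nil] at this
    have := S.pos
    omega

/-- additivity at a junction -/
theorem Sys.Th_append (S : Sys n L R) {i j : ι} {u z : List α} (h1 : L i <:+ u) (h2 : R j <+: z) :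
    Th M L R val (u ++ z) =
      act M z (Th M L R val u) + act M z (val j - val i) + Th M L R val z := by
  have e1 : (u ++ z).length + 1 = u.length + (z.length + 1) := by
    rw [List.length_append]; omega
  rw [Th, e1, Finset.sum_range_add]
  have e2 : ∑ t ∈ Finset.range u.length,
      act M ((u ++ z).drop t) (J L R val ((u ++ z).take t) ((u ++ z).drop t)) =
      act M z (Th M L R val u) := by
    rw [Th, Finset.sum_range_succ, List.drop_length, J_nil_right S, act_zero, add_zero, act_sum]
    refine Finset.sum_congr rfl fun t ht => ?_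
    have ht' := Finset.mem_range.1 ht
    rw [List.drop_append_of_le_length ht'.le, List.take_append_of_le_length ht'.le, act_append]
    congr 2
    have h3 : u.take t ++ u.drop t = u := List.take_append_drop t u
    exact S.J_before (i := i) (j := j) (by rw [h3]; exact h1) h2 (by rw [List.length_drop]; omega)
  have e3 : ∑ s ∈ Finset.range (z.length + 1),
      act M ((u ++ z).drop (u.length + s))
        (J L R val ((u ++ z).take (u.length + s)) ((u ++ z).drop (u.length + s))) =
      act M z (val j - val i) + Th M L R val z := by
    have e4 : ∀ s, (u ++ z).drop (u.length + s) = z.drop s := by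
      intro s; rw [List.drop_append, List.drop_of_length_le (by omega)]; simp
    have e5 : ∀ s, (u ++ z).take (u.length + s) = u ++ z.take s := by
      intro s; rw [List.take_append, List.take_of_length_le (by omega)]; simp
    rw [Th, Finset.sum_range_succ', Finset.sum_range_succ']
    have e6 : act M (z.drop 0) (J L R val (z.take 0) (z.drop 0)) = 0 := by
      rw [List.take_zero, J_nil_left S, act_zero]
    rw [e6]
    simp only [add_zero]
    rw [add_comm]
    congr 1
    · rw [List.drop_left, List.take_left, S.J_some h1 h2]
    · refine Finset.sum_congr rfl fun s hs => ?_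
      have hs' := Finset.mem_range.1 hs
      rw [e4, e5]
      congr 1
      exact S.J_after (i := i) (j := j) h1 (by rw [List.take_append_drop]; exact h2)
        (by rw [List.length_take]; omega)
  rw [e2, e3, add_assoc]

theorem Sys.E_append (S : Sys n L R) {i j : ι} {u z : List α} (h1 : L i <:+ u) (h2 : R j <+: z)
    {x : V} (h3 : E M L R val u x = val i) :
    E M L R val (u ++ z) x = act M z (val j) + Th M L R val z := by
  rw [E, S.Th_append h1 h2, act_append, act_sub, ← h3]
  rw [E, act_add]
  abel

/-- no jump is realised while reading `y` -/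
theorem Sys.E_free (S : Sys n L R) {u y : List α}
    (h : ∀ p z : List α, p ++ z = u ++ y → u.length < p.length + n → J L R val p z = 0) (x : V) :
    E M L R val (u ++ y) x = act M y (E M L R val u x) := by
  have h1 : Th M L R val (u ++ y) = act M y (Th M L R val u) := by
    rw [Th, Th, act_sum]
    have e1 : (u ++ y).length + 1 = (u.length + 1) + y.length := by
      rw [List.length_append]; omega
    rw [e1, Finset.sum_range_add]
    have e2 : ∑ s ∈ Finset.range y.length,
        act M ((u ++ y).drop (u.length + 1 + s))
          (J L R val ((u ++ y).take (u.length + 1 + s)) ((u ++ y).drop (u.length + 1 + s))) = 0 := by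
      refine Finset.sum_eq_zero fun s hs => ?_
      have hs' := Finset.mem_range.1 hs
      rw [h _ _ (List.take_append_drop _ _) (by rw [List.length_take, List.length_append]; omega),
        act_zero]
    rw [e2, add_zero]
    refine Finset.sum_congr rfl fun t ht => ?_
    have ht' := Finset.mem_range.1 ht
    by_cases hn : u.length < t + n
    · rw [h _ _ (List.take_append_drop _ _) (by
        rw [List.length_take, List.length_append]; omega), act_zero]
      rw [J_none (p := u.take t) (z := u.drop t) (fun i' j' _ h => by
        have := h.length_le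
        rw [S.lenR, List.length_drop] at this
        have := S.pos
        omega), act_zero, act_zero]
    · rw [List.drop_append_of_le_length (by omega), List.take_append_of_le_length (by omega),
        act_append]
      congr 2
      apply S.J_eq (fun _ => Iff.rfl)
      intro k
      exact ⟨fun h => prefix_of_le h (by rw [S.lenR, List.length_drop]; omega),
        fun h => h.trans (List.prefix_append _ _)⟩
  rw [E, E, h1, act_append, act_add]

/-- Markers: in every occurrence of a marker every strand is cut, and markers contain no false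
junctions. -/
structure Mk {κ : Type} (M : α → V →+ V) (n : ℕ) (L R : ι → List α) (val : ι → V)
    (s : κ → List α) : Prop where
  cutp : ∀ (q : κ) (e : V), ∃ (i : ι) (t : ℕ), 2 * n ≤ t ∧ t + n ≤ (s q).length ∧
    L i <:+ (s q).take t ∧ R i <+: (s q).drop t ∧ val i = act M (((s q).take t).drop (2 * n)) e
  free : ∀ (q : κ) (t : ℕ) (i j : ι), n ≤ t → t ≤ (s q).length →
    L i <:+ (s q).take t → R j <+: (s q).drop t → i = j

/-- every factor of length `m` contains a marker -/
def Synd {κ : Type} (s : κ → List α) (m : ℕ) (w : List α) : Prop :=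
  ∀ u : List α, u <:+: w → u.length = m → ∃ q, s q <:+: u

variable (M n L R val) in
/-- the words between two cuts -/
def KK (B : ℕ) : Set (List α) :=
  {k | k.length ≤ B ∧ ∃ i j, R i <+: k ∧ L j <:+ k ∧ act M k (val i) + Th M L R val k = val j}

variable (M n L R val) in
/-- the words before the first cut -/
def PP (B : ℕ) (x : V) : Set (List α) :=
  {p | p.length ≤ B ∧ ∃ i, L i <:+ p ∧ E M L R val p x = val i}

variable (M n L R val) in
/-- the words after the last cut -/
def SS (B : ℕ) (v : V) : Set (List α) :=
  {z | z.length ≤ B ∧ ∃ i, R i <+: z ∧ act M z (val i) + Th M L R val z = v}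

theorem Sys.sound_aux (S : Sys n L R) {B : ℕ} {x : V} {z : List α}
    (hz : z ∈ kst (KK M L R val B)) : ∀ u : List α, (∃ i, L i <:+ u ∧ E M L R val u x = val i) →
      ∃ i, L i <:+ u ++ z ∧ E M L R val (u ++ z) x = val i := by
  obtain ⟨l, hl, rfl⟩ := hz
  induction l with
  | nil => intro u hu; simpa using hu
  | cons k l ih =>
    rintro u ⟨i, h1, h2⟩
    obtain ⟨-, i', j', h3, h4, h5⟩ := hl k List.mem_cons_self
    rw [List.flatten_cons, ← List.append_assoc]
    refine ih (fun v hv => hl v (List.mem_cons_of_mem _ hv)) (u ++ k) ⟨j', ?_, ?_⟩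
    · exact h4.trans (List.suffix_append _ _)
    · rw [S.E_append h1 h3 h2, h5]

theorem Sys.sound (S : Sys n L R) {B : ℕ} {x v : V} {w : List α}
    (hw : w ∈ cat (PP M L R val B x) (cat (kst (KK M L R val B)) (SS M L R val B v))) :
    E M L R val w x = v := by
  obtain ⟨p, ⟨-, hp⟩, _, ⟨k, hk, z, ⟨-, i, h1, h2⟩, rfl⟩, rfl⟩ := hw
  obtain ⟨j, h3, h4⟩ := S.sound_aux hk p hp
  rw [← List.append_assoc, S.E_append h3 h1 h4, h2]

variable {κ : Type} {s : κ → List α}

theorem Synd.sub {m : ℕ} {w z : List α} (h : Synd s m w) (hz : z <:+: w) : Synd s m z :=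
  fun u hu hm => h u (hu.trans hz) hm

/-- the value does not jump inside a marker -/
theorem Mk.prop (S : Sys n L R) (K : Mk M n L R val s) (w : List α) (q : κ) {t : ℕ}
    (ht : 2 * n ≤ t) (ht2 : t ≤ (s q).length) (x : V) :
    E M L R val (w ++ (s q).take t) x =
      act M (((s q).take t).drop (2 * n)) (E M L R val (w ++ (s q).take (2 * n)) x) := by
  have h1 : (s q).take t = (s q).take (2 * n) ++ ((s q).take t).drop (2 * n) := by
    have h2 : ((s q).take t).take (2 * n) = (s q).take (2 * n) := by
      rw [List.take_take, min_eq_left ht]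
    rw [← h2, List.take_append_drop]
  conv_lhs => rw [h1, ← List.append_assoc]
  apply S.E_free
  intro p z hpz hlt
  rw [List.append_assoc, ← h1] at hpz
  rw [List.length_append, List.length_take, min_eq_left (by omega)] at hlt
  by_cases h : ∃ ij : ι × ι, L ij.1 <:+ p ∧ R ij.2 <+: z
  · obtain ⟨⟨i, j⟩, h3, h4⟩ := h
    simp only at h3 h4
    -- split the position
    obtain ⟨y, rfl⟩ : ∃ y, p = w ++ y := by
      have h5 : w <+: p := List.prefix_of_prefix_length_le (List.prefix_append w _)
        (hpz ▸ List.prefix_append p z) (by omega)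
      obtain ⟨y, rfl⟩ := h5
      exact ⟨y, rfl⟩
    rw [List.append_assoc, List.append_cancel_left_eq] at hpz
    rw [List.length_append] at hlt
    have h6 : y = (s q).take y.length := by
      have h7 : y <+: s q := (List.prefix_append y z).trans (hpz ▸ List.take_prefix t (s q))
      exact List.prefix_iff_eq_take.1 h7
    have h8 : z <+: (s q).drop y.length := by
      have h9 : y ++ z <+: (s q).take y.length ++ (s q).drop y.length := by
        rw [List.take_append_drop, hpz]; exact List.take_prefix t (s q)
      rw [← h6] at h9
      exact (List.prefix_append_right_inj y).1 h9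
    have h10 : y.length ≤ (s q).length := by
      have := congrArg List.length hpz
      rw [List.length_append, List.length_take] at this
      omega
    have h11 : L i <:+ y := suffix_of_le h3 (by rw [S.lenL]; omega)
    have h12 := K.free q y.length i j (by omega) h10 (by rw [← h6]; exact h11) (h4.trans h8)
    rw [S.J_some h3 h4, h12, sub_self]
  · exact J_none fun i j h3 h4 => h ⟨(i, j), h3, h4⟩

/-- a cut inside a marker -/
theorem Mk.cut (S : Sys n L R) (K : Mk M n L R val s) (w : List α) (q : κ) (x : V) :
    ∃ (i : ι) (a b : List α), a ++ b = s q ∧ L i <:+ a ∧ R i <+: b ∧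
      E M L R val (w ++ a) x = val i := by
  obtain ⟨i, t, h1, h2, h3, h4, h5⟩ := K.cutp q (E M L R val (w ++ (s q).take (2 * n)) x)
  exact ⟨i, (s q).take t, (s q).drop t, List.take_append_drop _ _, h3, h4, by
    rw [K.prop S w q h1 (by omega), h5]⟩

theorem kst_cons' {K : Set (List α)} {k z : List α} (hk : k ∈ K) (hz : z ∈ kst K) :
    k ++ z ∈ kst K := by
  obtain ⟨l, hl, rfl⟩ := hz
  refine ⟨k :: l, ?_, rfl⟩
  intro u hu
  rcases List.mem_cons.1 hu with rfl | hu
  · exact hk
  · exact hl u hu

theorem Mk.cover (S : Sys n L R) (K : Mk M n L R val s) {m : ℕ} (x : V) (N : ℕ) :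
    ∀ (z : List α), z.length < N → ∀ (u : List α) (i : ι), L i <:+ u → R i <+: z →
      E M L R val u x = val i → Synd s m z →
        z ∈ cat (kst (KK M L R val (n + m))) (SS M L R val (n + m) (E M L R val (u ++ z) x)) := by
  induction N with
  | zero => intro z hz; omega
  | succ N ih =>
    intro z hz u i h1 h2 h3 h4
    by_cases hlen : z.length < n + m
    · refine ⟨[], ⟨[], by simp, rfl⟩, z, ⟨hlen.le, i, h2, ?_⟩, rfl⟩
      rw [S.E_append h1 h2 h3]
    · push Not at hlen
      obtain ⟨q, a, b, hab⟩ := h4 ((z.drop n).take m)
        (((List.take_prefix m _).isInfix).trans (List.drop_suffix n z).isInfix)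
        (by rw [List.length_take, List.length_drop]; omega)
      obtain ⟨i', c, d, hcd, h5, h6, h7⟩ := K.cut S (u ++ (z.take n ++ a)) q x
      have hz2 : z = (z.take n ++ a ++ c) ++ (d ++ (b ++ (z.drop n).drop m)) := by
        have e1 : a ++ (c ++ d) ++ b = (z.drop n).take m := by rw [hcd]; exact hab
        calc z = z.take n ++ ((z.drop n).take m ++ (z.drop n).drop m) := by
              rw [List.take_append_drop, List.take_append_drop]
          _ = _ := by rw [← e1]; simp only [List.append_assoc]
      have hnl : (z.take n).length = n := by rw [List.length_take]; omega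
      have hab' := congrArg List.length hab
      rw [List.length_append, List.length_append, List.length_take, List.length_drop,
        min_eq_left (by omega)] at hab'
      have hcd' := congrArg List.length hcd
      rw [List.length_append] at hcd'
      have hkl : (z.take n ++ a ++ c).length ≤ n + m := by
        rw [List.length_append, List.length_append, hnl]; omega
      have hz3 : (d ++ (b ++ (z.drop n).drop m)).length < N := by
        have := congrArg List.length hz2
        rw [List.length_append, List.length_append (as := z.take n ++ a),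
          List.length_append (as := z.take n), hnl] at this
        have := S.pos
        omega
      have h8 : L i' <:+ z.take n ++ a ++ c := h5.trans (List.suffix_append _ _)
      have h9 : R i <+: z.take n ++ a ++ c := by
        rw [hz2] at h2
        exact prefix_of_le h2 (by
          rw [S.lenR, List.length_append, List.length_append, hnl]; omega)
      have h10 : E M L R val (u ++ (z.take n ++ a ++ c)) x = val i' := by
        rw [← h7]; simp only [List.append_assoc]
      have h11 := ih _ hz3 (u ++ (z.take n ++ a ++ c)) i' (h8.trans (List.suffix_append _ _))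
        (h6.trans (List.prefix_append _ _)) h10
        (h4.sub (by
          conv_rhs => rw [hz2]
          exact (List.suffix_append _ _).isInfix))
      rw [List.append_assoc u, ← hz2] at h11
      obtain ⟨k, hk, z', hz', hkz⟩ := h11
      refine ⟨(z.take n ++ a ++ c) ++ k, kst_cons' ⟨hkl, i, i', h9, h8, ?_⟩ hk, z', hz', ?_⟩
      · rw [← h10, S.E_append h1 h9 h3]
      · rw [List.append_assoc (z.take n ++ a ++ c), hkz, ← hz2]

theorem Mk.complete (S : Sys n L R) (K : Mk M n L R val s) {m : ℕ} {w : List α}
    (hw : Synd s m w) (hm : m ≤ w.length) (x : V) :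
    w ∈ cat (PP M L R val (n + m) x) (cat (kst (KK M L R val (n + m)))
      (SS M L R val (n + m) (E M L R val w x))) := by
  obtain ⟨q, a, b, hab⟩ := hw (w.take m) (List.take_prefix m w).isInfix
    (by rw [List.length_take]; omega)
  obtain ⟨i, c, d, hcd, h5, h6, h7⟩ := K.cut S a q x
  have hz2 : w = (a ++ c) ++ (d ++ (b ++ w.drop m)) := by
    have e1 : a ++ (c ++ d) ++ b = w.take m := by rw [hcd]; exact hab
    calc w = w.take m ++ w.drop m := (List.take_append_drop _ _).symm
      _ = _ := by rw [← e1]; simp only [List.append_assoc]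
  have hab' := congrArg List.length hab
  rw [List.length_append, List.length_append, List.length_take, min_eq_left hm] at hab'
  have hcd' := congrArg List.length hcd
  rw [List.length_append] at hcd'
  have h8 := K.cover S (m := m) x ((d ++ (b ++ w.drop m)).length + 1) _ (Nat.lt_succ_self _)
    (a ++ c) i (h5.trans (List.suffix_append _ _)) (h6.trans (List.prefix_append _ _)) h7
    (hw.sub (by
      conv_rhs => rw [hz2]
      exact (List.suffix_append _ _).isInfix))
  rw [← hz2] at h8
  refine ⟨a ++ c, ⟨?_, i, h5.trans (List.suffix_append _ _), h7⟩, _, h8, hz2.symm⟩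
  rw [List.length_append]; omega

theorem SH.synd [Finite α] (s : κ → List α) (m : ℕ) : SH 0 {w : List α | Synd s m w} := by
  have hB : SH 0 {u : List α | u.length = m ∧ ¬ ∃ q, s q <:+: u} :=
    SH.finite0 (finite_of_length m fun w hw => hw.1.le)
  have h1 := (SH.univ.cat (hB.cat SH.univ)).compl
  convert h1 using 1
  ext w
  constructor
  · rintro hw ⟨a, -, _, ⟨u, ⟨hu, hn⟩, t, -, rfl⟩, rfl⟩
    exact hn (hw u ⟨a, t, by simp⟩ hu)
  · intro hw u hu hm
    by_contra hn
    obtain ⟨a, t, rfl⟩ := hu
    exact hw ⟨a, trivial, u ++ t, ⟨u, ⟨hm, hn⟩, t, trivial, rfl⟩, by simp⟩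

theorem Mk.SH_val [Finite α] (S : Sys n L R) (K : Mk M n L R val s) (m : ℕ) (x v : V) :
    SH 1 {w : List α | Synd s m w ∧ E M L R val w x = v} := by
  have h1 : SH 1 (P329.cat (PP M L R val (n + m) x) (P329.cat (P329.kst (KK M L R val (n + m)))
      (SS M L R val (n + m) v))) :=
    (SH.finite0 (finite_of_length (n + m) fun w hw => hw.1)).of_zero.cat
      (((SH.finite0 (finite_of_length (n + m) fun w hw => hw.1)).kst).cat
        (SH.finite0 (finite_of_length (n + m) fun w hw => hw.1)).of_zero)
  have h2 : SH 1 {w : List α | w.length < m ∧ Synd s m w ∧ E M L R val w x = v} :=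
    (SH.finite0 (finite_of_length m fun w hw => hw.1.le)).of_zero
  have h3 := ((SH.synd s m).of_zero.inter h1).union h2
  convert h3 using 1
  ext w
  constructor
  · rintro ⟨hs, hv⟩
    by_cases hw : w.length < m
    · exact Or.inr ⟨hw, hs, hv⟩
    · left
      refine ⟨hs, ?_⟩
      have := K.complete S hs (by omega) x
      rwa [hv] at this
  · rintro (⟨hs, hw⟩ | ⟨-, hs, hv⟩)
    · exact ⟨hs, S.sound hw⟩
    · exact ⟨hs, hv⟩

theorem Mk.SH_act [Finite α] [Finite V] (S : Sys n L R) (K : Mk M n L R val s) (m : ℕ) (x : V)
    (F : Set V) : SH 1 {w : List α | Synd s m w ∧ act M w x ∈ F} := by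
  have h1 : SH 1 (⋃ v : V, ⋃ v' : V, ⋃ _ : v - v' ∈ F,
      ({w : List α | Synd s m w ∧ E M L R val w x = v} ∩
       {w : List α | Synd s m w ∧ E M L R val w 0 = v'})) :=
    SH.iUnion fun v => SH.iUnion fun v' => SH.iUnion_prop fun _ =>
      (K.SH_val S m x v).inter (K.SH_val S m 0 v')
  convert h1 using 1
  ext w
  have h2 : E M L R val w x - E M L R val w 0 = act M w x := by
    rw [E, E, act_zero]; abel
  simp only [Set.mem_iUnion]
  constructor
  · rintro ⟨hs, hF⟩
    exact ⟨_, _, by rw [h2]; exact hF, ⟨hs, rfl⟩, ⟨hs, rfl⟩⟩
  · rintro ⟨v, v', hF, ⟨hs, rfl⟩, ⟨-, rfl⟩⟩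
    rw [h2] at hF
    exact ⟨hs, hF⟩

end sys

end Vale.Agent.P329.Mark
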