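import Vale.Agent.P329.Mark.Choose
import Vale.Agent.P329.Mark.Core

set_option linter.all false

/-!
Regular languages on words with long markers.
-/

namespace Vale.Agent.P329.Mark

open Vale.Agent.P329 Vale.Agent.P329.Slow

section pf

variable {α : Type}

theorem periodic_getElem? {s : List α} {p d len : ℕ} (hd : 0 < d)
    (h : Ag (fun x => s[x]?) (fun x => s[x]?) p (p + d) len) (i : ℕ) (hi : i < len + d) :
    s[p + i]? = s[p + i % d]? := by
  induction i using Nat.strong_induction_on with
  | _ i ih =>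
    by_cases h1 : i < d
    · rw [Nat.mod_eq_of_lt h1]
    · have h2 := h (i - d) (by omega)
      simp only at h2
      have e : p + d + (i - d) = p + i := by omega
      rw [e] at h2
      rw [← h2, ih (i - d) (by omega) (by omega)]
      rw [Nat.mod_eq_sub_mod (by omega : d ≤ i)]

/-- a factor with period `d` and length at least `N * d` contains an `N`-th power -/
theorem pow_of_period {s : List α} {p d len N : ℕ} (hd : 0 < d) (hle : p + N * d ≤ s.length)
    (hle2 : p + d ≤ s.length) (hN : N * d ≤ len + d)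
    (h : Ag (fun x => s[x]?) (fun x => s[x]?) p (p + d) len) :
    ∃ z : List α, z ≠ [] ∧ z.length = d ∧ (List.replicate N z).flatten = (s.drop p).take (N * d) := by
  have hzl : ((s.drop p).take d).length = d := by
    rw [List.length_take, List.length_drop]; omega
  refine ⟨(s.drop p).take d, ?_, hzl, ?_⟩
  · intro h0
    rw [h0, List.length_nil] at hzl
    omega
  · apply List.ext_getElem?
    intro i
    by_cases hi : i < N * d
    · rw [pow_getElem? _ N i (by rw [hzl]; exact hi), hzl, List.getElem?_take, List.getElem?_take,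
        if_pos (Nat.mod_lt _ hd), if_pos hi, List.getElem?_drop, List.getElem?_drop,
        periodic_getElem? hd h i (by omega)]
    · rw [List.getElem?_take, if_neg hi, List.getElem?_eq_none]
      rw [pow_length, hzl]; omega

/-- power-free words -/
def Free (N : ℕ) (s : List α) : Prop :=
  ∀ z : List α, z ≠ [] → ¬ (List.replicate N z).flatten <:+: s

theorem Free.pf {N Λ : ℕ} {s : List α} (h : Free N s) (hΛ : Λ ≤ s.length) :
    PF N Λ (fun x => s[x]?) := by
  intro p d len hd hle hAg
  by_contra hlen
  push Not at hlen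
  obtain ⟨z, hz, -, h1⟩ := pow_of_period (N := N) hd (by omega) (by omega) (by omega) hAg
  refine h z hz ?_
  rw [h1]
  exact ((List.take_prefix _ _).isInfix).trans (List.drop_suffix _ _).isInfix

end pf

section windows

variable {α V κ : Type} [AddCommGroup V]

/-- left window -/
def Lw (l : ℕ) (s : κ → List α) (x : κ × V → Fin l) (i : κ × V) : List α :=
  ((s i.1).take (2 * l + x i)).drop (l + x i)

/-- right window -/
def Rw (l : ℕ) (s : κ → List α) (x : κ × V → Fin l) (i : κ × V) : List α :=
  ((s i.1).drop (2 * l + x i)).take l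

theorem Lw_get {l : ℕ} {s : κ → List α} {x : κ × V → Fin l} {i : κ × V} {y : ℕ} (hy : y < l) :
    (Lw l s x i)[y]? = (s i.1)[l + x i + y]? := by
  rw [Lw, List.getElem?_drop, List.getElem?_take, if_pos (by omega)]

theorem Rw_get {l : ℕ} {s : κ → List α} {x : κ × V → Fin l} {i : κ × V} {y : ℕ} (hy : y < l) :
    (Rw l s x i)[y]? = (s i.1)[2 * l + x i + y]? := by
  rw [Rw, List.getElem?_take, if_pos hy, List.getElem?_drop]

theorem Lw_length {l : ℕ} {s : κ → List α} {x : κ × V → Fin l} (h : ∀ q, 4 * l ≤ (s q).length)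
    (i : κ × V) : (Lw l s x i).length = l := by
  have := h i.1
  have := (x i).isLt
  rw [Lw, List.length_drop, List.length_take]
  omega

theorem Rw_length {l : ℕ} {s : κ → List α} {x : κ × V → Fin l} (h : ∀ q, 4 * l ≤ (s q).length)
    (i : κ × V) : (Rw l s x i).length = l := by
  have := h i.1
  have := (x i).isLt
  rw [Rw, List.length_take, List.length_drop]
  omega

theorem window_sys {l : ℕ} {s : κ → List α} {x : κ × V → Fin l} (hl : 0 < l)
    (h : ∀ q, 4 * l ≤ (s q).length)
    (h1 : ∀ i j, i ≠ j → ¬ Ag (fun y => (s i.1)[y]?) (fun y => (s j.1)[y]?) (l + x i) (l + x j) l)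
    (h2 : ∀ i j, i ≠ j → ¬ Ag (fun y => (s i.1)[y]?) (fun y => (s j.1)[y]?)
      (2 * l + x i) (2 * l + x j) l)
    (h4 : ∀ i j k d, i ≠ j → 0 < d → d < l →
      Ag (fun y => (s k.1)[y]?) (fun y => (s i.1)[y]?) (l + x k) (l + d + x i) (l - d) →
      ¬ Ag (fun y => (s k.1)[y]?) (fun y => (s j.1)[y]?) (2 * l - d + x k) (2 * l + x j) d)
    (h5 : ∀ i j k d, i ≠ j → 0 < d → d < l →
      Ag (fun y => (s k.1)[y]?) (fun y => (s i.1)[y]?) (2 * l + x k) (2 * l - d + x i) d →
      ¬ Ag (fun y => (s k.1)[y]?) (fun y => (s j.1)[y]?) (2 * l + d + x k) (2 * l + x j) (l - d)) :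
    Sys l (Lw l s x) (Rw l s x) := by
  refine ⟨hl, Lw_length h, Rw_length h, ?_, ?_, ?_, ?_⟩
  · intro i j hij
    by_contra hne
    refine h1 i j hne fun y hy => ?_
    simp only
    rw [← Lw_get hy, ← Lw_get hy, hij]
  · intro i j hij
    by_contra hne
    refine h2 i j hne fun y hy => ?_
    simp only
    rw [← Rw_get hy, ← Rw_get hy, hij]
  · intro i j k d hij hd hdl he
    have hlen : ((Lw l s x i).drop d).length = l - d := by rw [List.length_drop, Lw_length h]
    refine h4 i j k d hij hd hdl (fun y hy => ?_) (fun y hy => ?_)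
    · simp only
      rw [← Lw_get (i := k) (by omega : y < l), he, List.getElem?_append_left (by omega),
        List.getElem?_drop, Lw_get (by omega)]
      congr 1; omega
    · simp only
      have e1 : 2 * l - d + (x k : ℕ) + y = l + x k + (l - d + y) := by omega
      rw [e1, ← Lw_get (i := k) (by omega : l - d + y < l), he,
        List.getElem?_append_right (by omega), hlen, List.getElem?_take, if_pos (by omega),
        Rw_get (by omega)]
      congr 1; omega
  · intro i j k d hij hd hdl he
    have hlen : ((Lw l s x i).drop (l - d)).length = d := by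
      rw [List.length_drop, Lw_length h]; omega
    refine h5 i j k d hij hd hdl (fun y hy => ?_) (fun y hy => ?_)
    · simp only
      rw [← Rw_get (i := k) (by omega : y < l), he, List.getElem?_append_left (by omega),
        List.getElem?_drop, Lw_get (by omega)]
      congr 1; omega
    · simp only
      have e1 : 2 * l + d + (x k : ℕ) + y = 2 * l + x k + (d + y) := by omega
      rw [e1, ← Rw_get (i := k) (by omega : d + y < l), he,
        List.getElem?_append_right (by omega), hlen, List.getElem?_take, if_pos (by omega),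
        Rw_get (by omega)]
      congr 1; omega

variable (M : α → V →+ V)

theorem window_mk {l : ℕ} {s : κ → List α} {x : κ × V → Fin l} (hl : 0 < l)
    (h : ∀ q, 4 * l ≤ (s q).length)
    (h3 : ∀ (i j k : κ × V) (p : ℕ), i ≠ j → p ≤ 2 * l →
      Ag (fun y => (s k.1)[y]?) (fun y => (s i.1)[y]?) p (l + x i) l →
      ¬ Ag (fun y => (s k.1)[y]?) (fun y => (s j.1)[y]?) (l + p) (2 * l + x j) l) :
    Mk M l (Lw l s x) (Rw l s x)
      (fun i => act M (((s i.1).take (2 * l + x i)).drop (2 * l)) i.2)
      (fun q => (s q).take (4 * l)) := by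
  have htl : ∀ q, ((s q).take (4 * l)).length = 4 * l := fun q => by
    rw [List.length_take]; exact min_eq_left (h q)
  constructor
  · intro q e
    have hx := (x (q, e)).isLt
    have h1 : ((s q).take (4 * l)).take (2 * l + x (q, e)) = (s q).take (2 * l + x (q, e)) := by
      rw [List.take_take, min_eq_left (by omega)]
    refine ⟨(q, e), 2 * l + x (q, e), by omega, by rw [htl]; omega, ?_, ?_, ?_⟩
    · rw [h1]
      exact List.drop_suffix _ _
    · rw [Rw, List.drop_take]
      exact List.take_prefix_take_left (by omega)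
    · rw [h1]
  · intro q t i j ht ht2 hL hR
    by_contra hij
    rw [htl] at ht2
    have h6 := hR.length_le
    rw [Rw_length h, List.length_drop, htl] at h6
    refine h3 i j (q, 0) (t - l) hij (by omega) (fun y hy => ?_) (fun y hy => ?_)
    · simp only
      obtain ⟨a, ha⟩ := hL
      have hal : a.length = t - l := by
        have := congrArg List.length ha
        rw [List.length_append, Lw_length h, List.length_take, htl] at this
        omega
      have h7 : ((s q).take (4 * l)).take t = (s q).take t := by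
        rw [List.take_take, min_eq_left ht2]
      have h8 : (s q)[t - l + y]? = ((s q).take t)[t - l + y]? := by
        rw [List.getElem?_take, if_pos (by omega)]
      rw [h8, ← h7, ← ha, List.getElem?_append_right (by omega), hal, ← Lw_get hy]
      congr 1; omega
    · simp only
      have e1 : l + (t - l) = t := by omega
      rw [e1]
      obtain ⟨b, hb⟩ := hR
      have h8 : (s q)[t + y]? = (((s q).take (4 * l)).drop t)[y]? := by
        rw [List.getElem?_drop, List.getElem?_take, if_pos (by omega)]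
      rw [h8, ← hb, List.getElem?_append_left (by rw [Rw_length h]; omega), Rw_get hy]

end windows

/-- long power-free markers, linear action -/
theorem SH_act_free (v N : ℕ) : ∃ C : ℕ, ∀ r : ℕ, ∀ (α V κ : Type) [Finite α] [Fintype V]
    [AddCommGroup V] [Fintype κ] (M : α → V →+ V) (s : κ → List α), Fintype.card V ≤ v →
    Fintype.card κ ≤ r →
    (∀ q, C * (r + 1) ^ 14 ≤ (s q).length ∧ Free N (s q)) → ∀ (m : ℕ) (x : V) (F : Set V),
      SH 1 {w : List α | Synd s m w ∧ act M w x ∈ F} := by
  classical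
  obtain ⟨C, hC⟩ := windows N
  refine ⟨C * (v + 1) ^ 14, fun r => ?_⟩
  obtain ⟨Λ, hΛC, hΛ⟩ := hC (r * v)
  intro α V κ _ _ _ _ M s hv hr hs' m x F
  have hs : ∀ q, Λ ≤ (s q).length ∧ Free N (s q) := by
    intro q
    refine ⟨(hΛC.trans ?_).trans (hs' q).1, (hs' q).2⟩
    rw [Nat.mul_assoc, ← Nat.mul_pow]
    refine Nat.mul_le_mul_left _ (Nat.pow_le_pow_left ?_ 14)
    nlinarith
  obtain ⟨l, hl, hl4, y, h1, h2, h3, h4, h5⟩ := hΛ (κ × V)
    (by rw [Fintype.card_prod]; exact Nat.mul_le_mul hr hv) (Option α)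
    (fun i y => (s i.1)[y]?) (fun i => (hs i.1).2.pf (hs i.1).1)
  have h : ∀ q, 4 * l ≤ (s q).length := fun q => hl4.trans (hs q).1
  have S := window_sys hl h h1 h2 h4 h5
  have K := window_mk M hl h h3
  have h6 := (SH.synd s m).of_zero.inter (K.SH_act S m x F)
  convert h6 using 1
  ext w
  constructor
  · rintro ⟨hw, hF⟩
    refine ⟨hw, fun u hu hm => ?_, hF⟩
    obtain ⟨q, hq⟩ := hw u hu hm
    exact ⟨q, ((List.take_prefix _ _).isInfix).trans hq⟩
  · rintro ⟨hw, -, hF⟩
    exact ⟨hw, hF⟩

section regular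

/-- from the linear action to automata -/
theorem dfa_transfer {α σ : Type} [Finite α] [Fintype σ] {Q : Set (List α)} {P : Set (List α) → Prop}
    (A : DFA α σ)
    (h : ∀ (M : α → (Fin (Fintype.card σ) → ZMod 2) →+ (Fin (Fintype.card σ) → ZMod 2))
      (x : Fin (Fintype.card σ) → ZMod 2) (F : Set (Fin (Fintype.card σ) → ZMod 2)),
      P {w : List α | w ∈ Q ∧ act M w x ∈ F}) : P {w : List α | w ∈ A.accepts ∧ w ∈ Q} := by
  classical
  let e : σ ≃ Fin (Fintype.card σ) := Fintype.equivFin σ
  let δ : Fin (Fintype.card σ) → α → Fin (Fintype.card σ) := fun q a => e (A.step (e.symm q) a)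
  have h5 := h (push δ) (Pi.single (e A.start) 1) {v | ∃ q ∈ A.accept, v = Pi.single (e q) 1}
  have h6 : ∀ (w : List α) (q : σ), w.foldl δ (e q) = e (w.foldl A.step q) := by
    intro w
    induction w with
    | nil => intro q; rfl
    | cons a w ih =>
      intro q
      rw [List.foldl_cons, List.foldl_cons, ← ih]
      show List.foldl δ (e (A.step (e.symm (e q)) a)) w = _
      rw [Equiv.symm_apply_apply]
  convert h5 using 1
  ext w
  constructor
  · rintro ⟨hw, hs⟩
    refine ⟨hs, w.foldl A.step A.start, hw, ?_⟩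
    rw [act_single, h6]
  · rintro ⟨hs, q, hq, hw⟩
    refine ⟨?_, hs⟩
    rw [act_single, h6] at hw
    have h7 : e (w.foldl A.step A.start) = e q := by
      by_contra hne
      have h8 := congrFun hw (e q)
      rw [Pi.single_eq_same, Pi.single_eq_of_ne (Ne.symm hne)] at h8
      exact zero_ne_one h8
    have h9 := e.injective h7
    show w.foldl A.step A.start ∈ A.accept
    rw [h9]; exact hq

/-- Long power-free markers: every regular language has height at most one on the words in which
every factor of length `m` contains one of at most `r` long power-free words. -/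
theorem regular_free {α : Type} [Finite α] (L : Language α) (hL : L.IsRegular) (N : ℕ) :
    ∃ C : ℕ, ∀ (r : ℕ) (κ : Type) [Fintype κ] (s : κ → List α), Fintype.card κ ≤ r →
      (∀ q, C * (r + 1) ^ 14 ≤ (s q).length ∧ Free N (s q)) → ∀ m : ℕ,
        SH 1 {w : List α | w ∈ L ∧ Synd s m w} := by
  obtain ⟨σ, hσ, A, rfl⟩ := hL
  obtain ⟨C, hC⟩ := SH_act_free (Fintype.card (Fin (Fintype.card σ) → ZMod 2)) N
  refine ⟨C, fun r κ _ s hr hs m => ?_⟩
  exact dfa_transfer (Q := {w | Synd s m w}) (P := fun X => SH 1 X) A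
    fun M x F => hC r α _ κ M s le_rfl hr hs m x F

/-- a threshold depending only on the number of states -/
theorem slow_dfa (n : ℕ) : ∃ N₀ : ℕ, ∀ (α σ : Type) [Finite α] [Fintype σ],
    Fintype.card σ = n → ∀ {P : Set (List α) → Prop}, Cls P → ∀ (A : DFA α σ) (N : ℕ), N₀ ≤ N →
      ∀ m : ℕ, P {w : List α | w ∈ A.accepts ∧ Slow.Slow N m w} := by
  classical
  obtain ⟨D, hD, W, U, τ, h1, h2, h3, h4⟩ := exists_coding n
  obtain ⟨R, hR, hidem⟩ := exists_idem (α := (Fin n → ZMod 2) → (Fin n → ZMod 2))
    (V := Fin n → ZMod 2) (fun f x => f x)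
  refine ⟨R * (2 * D + 2), fun α σ _ _ hn P hP A N hN m => ?_⟩
  subst hn
  rcases isEmpty_or_nonempty α with hα | ⟨⟨a0⟩⟩
  · refine hP.finite (finite_of_length 0 fun w _ => ?_)
    cases w with
    | nil => simp
    | cons a w => exact (hα.false a).elim
  · exact dfa_transfer (Q := {w | Slow.Slow N m w}) (P := P) A fun M x F => by
      have h : Cod M R D τ W U := ⟨hR, hD, fun a x => hidem (fun y => M a y) x, h1, h2, h3, h4⟩
      exact h.SH_act hP hN (m := m) a0 x F

theorem SH.syndw {α : Type} [Finite α] (s : List α) (m : ℕ) :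
    SH 0 {w : List α | ∀ u : List α, u <:+: w → u.length = m → s <:+: u} := by
  have h := SH.synd (κ := Unit) (fun _ => s) m
  convert h using 1
  ext w
  constructor
  · intro h u hu hm
    exact ⟨(), h u hu hm⟩
  · intro h u hu hm
    obtain ⟨_, h1⟩ := h u hu hm
    exact h1

/-- markers which are powers, with a threshold independent of the period -/
theorem regular_pow {α : Type} [Finite α] (L : Language α) (hL : L.IsRegular) :
    ∃ N : ℕ, ∀ z : List α, z ≠ [] → ∀ m : ℕ,
      SH 1 {w : List α | w ∈ L ∧ ∀ u : List α, u <:+: w → u.length = m →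
        (List.replicate N z).flatten <:+: u} := by
  classical
  obtain ⟨σ, hσ, A, rfl⟩ := hL
  obtain ⟨N₀, hN₀⟩ := slow_dfa (Fintype.card σ)
  refine ⟨N₀ + 1, fun z hz m => ?_⟩
  obtain ⟨q, hq0⟩ : ∃ q, q = z.length := ⟨_, rfl⟩
  have hq : 0 < q := by rw [hq0]; exact List.length_pos_iff.2 hz
  have hfin : {s : List α | s.length < q}.Finite :=
    finite_of_length q fun s hs => le_of_lt hs
  let B : List α → DFA (Fin q → α) σ := fun s =>
    ⟨fun t b => A.evalFrom t (List.ofFn b), A.start, {t | A.evalFrom t s ∈ A.accept}⟩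
  have hB : ∀ (s : List α) (w : List (Fin q → α)), w ∈ (B s).accepts ↔ phi w ++ s ∈ A.accepts := by
    intro s w
    have h1 : ∀ (w : List (Fin q → α)) (t : σ),
        w.foldl (fun t b => A.evalFrom t (List.ofFn b)) t = A.evalFrom t (phi w) := by
      intro w
      induction w with
      | nil => intro t; rfl
      | cons b w ih =>
        intro t
        rw [List.foldl_cons, ih, phi_cons, DFA.evalFrom_of_append]
    show A.evalFrom (w.foldl (fun t b => A.evalFrom t (List.ofFn b)) A.start) s ∈ A.accept ↔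
      A.evalFrom A.start (phi w ++ s) ∈ A.accept
    rw [h1, DFA.evalFrom_of_append]
  have h1 : SH 1 (⋃ s ∈ hfin.toFinset, P329.cat (phi '' {w : List (Fin q → α) |
      w ∈ (B s).accepts ∧ Slow.Slow N₀ m w}) {s}) :=
    SH.biUnion _ fun s hs => (hN₀ (Fin q → α) σ rfl (cls_phi (α := α) hq) (B s) N₀ le_rfl m).cat
      (SH.word s).of_zero
  have h2 := (SH.syndw (List.replicate (N₀ + 1) z).flatten m).of_zero.inter h1
  convert h2 using 1
  ext w
  constructor
  · rintro ⟨hw, hs⟩
    refine ⟨hs, ?_⟩
    obtain ⟨w', s, rfl, h3⟩ := exists_phi hq w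
    simp only [Set.mem_iUnion]
    refine ⟨s, by simpa using h3, phi w', ⟨w', ⟨(hB s w').2 hw, ?_⟩, rfl⟩, s, rfl, rfl⟩
    intro u hu hm
    have h4 : phi u <:+: phi w' ++ s := by
      obtain ⟨x, y, rfl⟩ := hu
      exact ⟨phi x, phi y ++ s, by simp [phi_append]⟩
    have h5 := hs ((phi u).take m)
      (((List.take_prefix m (phi u)).isInfix).trans h4)
      (by rw [List.length_take, phi_length, hm]; exact min_eq_left (Nat.le_mul_of_pos_left m hq))
    exact blocks_of_pow hq hz (by rw [hq0]) (by rw [hq0])
      (h5.trans (List.take_prefix m (phi u)).isInfix)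
  · rintro ⟨hs, hw⟩
    simp only [Set.mem_iUnion] at hw
    obtain ⟨s, -, _, ⟨w', ⟨h3, -⟩, rfl⟩, s', hs', rfl⟩ := hw
    rw [Set.mem_singleton_iff] at hs'
    subst hs'
    exact ⟨(hB _ w').1 h3, hs⟩

/-- one long marker -/
theorem regular_one {α : Type} [Finite α] (L : Language α) (hL : L.IsRegular) :
    ∃ Λ : ℕ, ∀ s : List α, Λ ≤ s.length → ∀ m : ℕ,
      SH 1 {w : List α | w ∈ L ∧ ∀ u : List α, u <:+: w → u.length = m → s <:+: u} := by
  obtain ⟨N, hN⟩ := regular_pow L hL
  obtain ⟨C, hC⟩ := regular_free L hL N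
  refine ⟨C * (1 + 1) ^ 14, fun s hs m => ?_⟩
  have hΛ := hC 1
  by_cases h : Free N s
  · have h1 := hΛ Unit (fun _ => s) (by simp) (fun _ => ⟨hs, h⟩) m
    convert h1 using 1
    ext w
    constructor
    · rintro ⟨hw, h2⟩
      exact ⟨hw, fun u hu hm => ⟨(), h2 u hu hm⟩⟩
    · rintro ⟨hw, h2⟩
      refine ⟨hw, fun u hu hm => ?_⟩
      obtain ⟨_, h3⟩ := h2 u hu hm
      exact h3
  · unfold Free at h
    push Not at h
    obtain ⟨z, hz, hzs⟩ := h
    have h1 := (SH.syndw s m).of_zero.inter (hN z hz m)
    convert h1 using 1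
    ext w
    constructor
    · rintro ⟨hw, h2⟩
      exact ⟨h2, hw, fun u hu hm => hzs.trans (h2 u hu hm)⟩
    · rintro ⟨h2, hw, -⟩
      exact ⟨hw, h2⟩

end regular

end Vale.Agent.P329.Mark
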