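import Vale.Agent.P329.Mark.Long

set_option linter.all false

/-!
Factorial languages of low complexity without high powers.
-/

namespace Vale.Agent.P329.Mark

open Vale.Agent.P329 Vale.Agent.P329.Slow

section growth

theorem exists_small_step (p : ℕ → ℕ) (hp : ∀ n, p n ≤ p (n + 1)) (n : ℕ) (hn : 0 < n) :
    ∃ k, n ≤ 2 * k + 1 ∧ n * (p (k + 1) - p k) ≤ 2 * p n := by
  by_contra hcon
  push Not at hcon
  obtain ⟨h, hh⟩ : ∃ h, h = n / 2 := ⟨_, rfl⟩
  have h1 : ∑ k ∈ Finset.Ico h n, (2 * p n + 1) ≤ ∑ k ∈ Finset.Ico h n, n * (p (k + 1) - p k) := by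
    refine Finset.sum_le_sum fun k hk => ?_
    rw [Finset.mem_Ico] at hk
    exact hcon k (by omega)
  have hmono : Monotone p := monotone_nat_of_le_succ hp
  have h2 : ∑ k ∈ Finset.Ico h n, (p (k + 1) - p k) ≤ p n := by
    have h3 : ∀ m, h ≤ m → ∑ k ∈ Finset.Ico h m, (p (k + 1) - p k) = p m - p h := by
      intro m hm
      induction m, hm using Nat.le_induction with
      | base => simp
      | succ m hm ih =>
        rw [Finset.sum_Ico_succ_top hm, ih]
        have := hp m
        have := hmono hm
        omega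
    rw [h3 n (by omega)]
    omega
  rw [← Finset.mul_sum, Finset.sum_const, Nat.card_Ico, smul_eq_mul] at h1
  have h4 := h1.trans (Nat.mul_le_mul_left n h2)
  have h5 : n ≤ 2 * (n - h) := by omega
  have h6 : n * p n ≤ 2 * (n - h) * p n := Nat.mul_le_mul_right _ h5
  have h7 : (n - h) * (2 * p n + 1) = 2 * (n - h) * p n + (n - h) := by ring
  omega

theorem exists_good (p : ℕ → ℕ) (hp : ∀ n, p n ≤ p (n + 1)) (C D : ℕ)
    (h : ∀ n₀, ∃ n, n₀ ≤ n ∧ p n ^ 15 ≤ C * n ^ 16) :
    ∃ k, D * (p (k + 1) - p k + 1) ^ 14 ≤ k := by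
  obtain ⟨A, hA⟩ : ∃ A, A = 2 ^ 15 * C + 1 := ⟨_, rfl⟩
  obtain ⟨T, hT⟩ : ∃ T, T = 2 ^ 16 * (D + 1) * A := ⟨_, rfl⟩
  obtain ⟨n, hn, hpn⟩ := h (2 * ((D + 1) * (T + 1) ^ 14) + 1)
  obtain ⟨k, hk, hkn⟩ := exists_small_step p hp n (by omega)
  obtain ⟨r, hr⟩ : ∃ r, r = p (k + 1) - p k := ⟨_, rfl⟩
  rw [← hr] at hkn
  refine ⟨k, ?_⟩
  rw [← hr]
  have hDD : D * (r + 1) ^ 14 ≤ (D + 1) * (r + 1) ^ 14 := Nat.mul_le_mul_right _ (by omega)
  refine hDD.trans ?_
  have h1 : r ^ 15 ≤ A * n := by
    have h2 : n ^ 15 * r ^ 15 ≤ n ^ 15 * (A * n) := by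
      calc n ^ 15 * r ^ 15 = (n * r) ^ 15 := by ring
        _ ≤ (2 * p n) ^ 15 := Nat.pow_le_pow_left hkn 15
        _ = 2 ^ 15 * p n ^ 15 := by ring
        _ ≤ 2 ^ 15 * (C * n ^ 16) := Nat.mul_le_mul_left _ hpn
        _ = n ^ 15 * (2 ^ 15 * C * n) := by ring
        _ ≤ n ^ 15 * (A * n) := Nat.mul_le_mul_left _ (Nat.mul_le_mul_right _ (by omega))
    exact Nat.le_of_mul_le_mul_left h2 (pow_pos (by omega) 15)
  by_cases hrT : r ≤ T
  · have h3 : (D + 1) * (r + 1) ^ 14 ≤ (D + 1) * (T + 1) ^ 14 :=
      Nat.mul_le_mul_left _ (Nat.pow_le_pow_left (by omega) 14)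
    omega
  · push Not at hrT
    have hT0 : 0 < r := by omega
    have h3 : (r + 1) ^ 14 ≤ 2 ^ 14 * r ^ 14 := by
      rw [← Nat.mul_pow]
      exact Nat.pow_le_pow_left (by omega) 14
    have h4 : A * (2 ^ 16 * (D + 1) * r ^ 14) ≤ A * n := by
      calc A * (2 ^ 16 * (D + 1) * r ^ 14) = T * r ^ 14 := by rw [hT]; ring
        _ ≤ r * r ^ 14 := Nat.mul_le_mul_right _ hrT.le
        _ = r ^ 15 := by ring
        _ ≤ A * n := h1
    have h5 := Nat.le_of_mul_le_mul_left h4 (by omega)
    have h6 : (D + 1) * (r + 1) ^ 14 ≤ (D + 1) * (2 ^ 14 * r ^ 14) := Nat.mul_le_mul_left _ h3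
    have h7 : 2 ^ 16 * (D + 1) * r ^ 14 = 4 * ((D + 1) * (2 ^ 14 * r ^ 14)) := by ring
    have h8 : 0 < (D + 1) * (2 ^ 14 * r ^ 14) := by positivity
    omega

end growth

section special

variable {α : Type} [Finite α]

/-- words of length `n` -/
def Lev (F : Set (List α)) (n : ℕ) : Set (List α) := {u | u ∈ F ∧ u.length = n}

/-- right special words of length `n` -/
def RS (F : Set (List α)) (n : ℕ) : Set (List α) :=
  {u | u ∈ Lev F n ∧ ∃ a b : α, a ≠ b ∧ u ++ [a] ∈ F ∧ u ++ [b] ∈ F}

theorem Lev_finite (F : Set (List α)) (n : ℕ) : (Lev F n).Finite :=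
  finite_of_length n fun u hu => le_of_eq hu.2

theorem RS_finite (F : Set (List α)) (n : ℕ) : (RS F n).Finite :=
  (Lev_finite F n).subset fun u hu => hu.1

theorem RS_card {F : Set (List α)} (hext : ∀ w ∈ F, ∃ a, w ++ [a] ∈ F) (n : ℕ) :
    (RS F n).ncard + (Lev F n).ncard ≤ (Lev F (n + 1)).ncard := by
  classical
  have h1 : ∀ u : List α, ∃ v : List α, u ∈ Lev F n → v ∈ Lev F (n + 1) ∧ v.take n = u := by
    intro u
    by_cases hu : u ∈ Lev F n
    · obtain ⟨a, ha⟩ := hext u hu.1
      refine ⟨u ++ [a], fun _ => ⟨⟨ha, by simp [hu.2]⟩, ?_⟩⟩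
      rw [← hu.2, List.take_left]
    · exact ⟨[], fun h => absurd h hu⟩
  choose e he using h1
  have h2 : ∀ u : List α, ∃ v : List α, u ∈ RS F n → v ∈ Lev F (n + 1) ∧ v.take n = u ∧ v ≠ e u := by
    intro u
    by_cases hu : u ∈ RS F n
    · obtain ⟨hu1, a, b, hab, ha, hb⟩ := hu
      by_cases h3 : u ++ [a] = e u
      · refine ⟨u ++ [b], fun _ => ⟨⟨hb, by simp [hu1.2]⟩, ?_, ?_⟩⟩
        · rw [← hu1.2, List.take_left]
        · rw [← h3]
          intro h4
          have h5 := List.append_cancel_left h4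
          simp only [List.cons.injEq, and_true] at h5
          exact hab h5.symm
      · refine ⟨u ++ [a], fun _ => ⟨⟨ha, by simp [hu1.2]⟩, ?_, h3⟩⟩
        rw [← hu1.2, List.take_left]
    · exact ⟨[], fun h => absurd h hu⟩
  choose e' he' using h2
  have h3 : Disjoint (e' '' RS F n) (e '' Lev F n) := by
    rw [Set.disjoint_left]
    rintro _ ⟨u, hu, rfl⟩ ⟨v, hv, h4⟩
    have h5 := (he' u hu).2.1
    rw [← h4, (he v hv).2] at h5
    subst h5
    exact (he' v hu).2.2 h4.symm
  have h4 : (e' '' RS F n ∪ e '' Lev F n) ⊆ Lev F (n + 1) := by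
    rintro _ (⟨u, hu, rfl⟩ | ⟨u, hu, rfl⟩)
    · exact (he' u hu).1
    · exact (he u hu).1
  have h5 := Set.ncard_le_ncard h4 (Lev_finite F (n + 1))
  rw [Set.ncard_union_eq h3 ((RS_finite F n).image _) ((Lev_finite F n).image _)] at h5
  rw [Set.ncard_image_of_injOn, Set.ncard_image_of_injOn] at h5
  · exact h5
  · intro u hu v hv huv
    rw [← (he u hu).2, ← (he v hv).2]
    exact congrArg (List.take n) huv
  · intro u hu v hv huv
    rw [← (he' u hu).2.1, ← (he' v hv).2.1]
    exact congrArg (List.take n) huv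

theorem exists_RS {F : Set (List α)} (hfac : ∀ w ∈ F, ∀ u : List α, u <:+: w → u ∈ F) {N : ℕ}
    (hN : ∀ z : List α, z ≠ [] → (List.replicate N z).flatten ∉ F) (n : ℕ) {w : List α}
    (hw : w ∈ F) (hlen : (N + 1) * (Lev F n).ncard + n ≤ w.length) :
    ∃ u ∈ RS F n, u <:+: w := by
  classical
  by_contra hcon
  push Not at hcon
  obtain ⟨c, hc⟩ : ∃ c, c = (Lev F n).ncard := ⟨_, rfl⟩
  rw [← hc] at hlen
  have hlen1 : (N + 1) * c = N * c + c := by ring
  rw [hlen1] at hlen
  let W : ℕ → List α := fun i => (w.drop i).take n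
  have hWin : ∀ i, W i <:+: w := fun i =>
    ((List.take_prefix _ _).isInfix).trans (List.drop_suffix _ _).isInfix
  have hWlen : ∀ i, i + n ≤ w.length → (W i).length = n := by
    intro i hi
    show ((w.drop i).take n).length = n
    rw [List.length_take, List.length_drop]; omega
  have hWmem : ∀ i, i + n ≤ w.length → W i ∈ Lev F n := fun i hi =>
    ⟨hfac w hw _ (hWin i), hWlen i hi⟩
  have hmaps : ∀ i ∈ Finset.range (c + 1), W i ∈ (Lev_finite F n).toFinset := by
    intro i hi
    rw [Finset.mem_range] at hi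
    rw [Set.Finite.mem_toFinset]
    exact hWmem i (by omega)
  have hcard : (Lev_finite F n).toFinset.card < (Finset.range (c + 1)).card := by
    rw [Finset.card_range, ← Set.ncard_eq_toFinset_card _ (Lev_finite F n), ← hc]
    omega
  obtain ⟨i, hi, j, hj, hij, hWij⟩ := Finset.exists_ne_map_eq_of_card_lt_of_maps_to hcard hmaps
  rw [Finset.mem_range] at hi hj
  have main : ∀ i j, i < j → j ≤ c → W i = W j → False := by
    intro i j hij hj hWij
    have step : ∀ t, j + t + n ≤ w.length → W (i + t) = W (j + t) := by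
      intro t
      induction t with
      | zero => intro _; exact hWij
      | succ t ih =>
        intro ht
        have h1 := ih (by omega)
        have hnot : W (i + t) ∉ RS F n := fun h => hcon _ h (hWin _)
        have hget : ∀ k, k + n < w.length → ∃ a, w[k + n]? = some a ∧ W k ++ [a] ∈ F := by
          intro k hk
          refine ⟨w[k + n], List.getElem?_eq_getElem hk, ?_⟩
          have h2 : W k ++ [w[k + n]] = (w.drop k).take (n + 1) := by
            show (w.drop k).take n ++ [w[k + n]] = _
            rw [List.take_succ, List.getElem?_drop, List.getElem?_eq_getElem hk]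
            rfl
          rw [h2]
          exact hfac w hw _ (((List.take_prefix _ _).isInfix).trans (List.drop_suffix _ _).isInfix)
        obtain ⟨a, ha, haF⟩ := hget (i + t) (by omega)
        obtain ⟨b, hb, hbF⟩ := hget (j + t) (by omega)
        have hab : a = b := by
          by_contra hne
          refine hnot ⟨hWmem _ (by omega), a, b, hne, haF, ?_⟩
          rw [h1]; exact hbF
        apply List.ext_getElem?
        intro x
        have hg : ∀ k, (W k)[x]? = if x < n then w[k + x]? else none := by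
          intro k
          show ((w.drop k).take n)[x]? = _
          rw [List.getElem?_take, List.getElem?_drop]
        rw [hg, hg]
        by_cases hx : x < n
        · rw [if_pos hx, if_pos hx]
          by_cases hx2 : x + 1 < n
          · have h3 := congrArg (fun l => l[x + 1]?) h1
            have hg' : ∀ k, (W k)[x + 1]? = if x + 1 < n then w[k + (x + 1)]? else none := by
              intro k
              show ((w.drop k).take n)[x + 1]? = _
              rw [List.getElem?_take, List.getElem?_drop]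
            rw [hg', hg', if_pos hx2, if_pos hx2] at h3
            have e1 : i + (t + 1) + x = i + t + (x + 1) := by omega
            have e2 : j + (t + 1) + x = j + t + (x + 1) := by omega
            rw [e1, e2]; exact h3
          · have e1 : i + (t + 1) + x = i + t + n := by omega
            have e2 : j + (t + 1) + x = j + t + n := by omega
            rw [e1, e2, ha, hb, hab]
        · rw [if_neg hx, if_neg hx]
    obtain ⟨d, hd⟩ : ∃ d, d = j - i := ⟨_, rfl⟩
    have hag : Ag (fun x => w[x]?) (fun x => w[x]?) i (i + d) (w.length - j) := by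
      intro y hy
      simp only
      have e1 : i + d + y = j + y := by omega
      rw [e1]
      by_cases hn0 : n = 0
      · -- no right special empty word: a single letter
        have hget : ∀ k, k < w.length → ∃ a, w[k]? = some a ∧ [a] ∈ F := by
          intro k hk
          refine ⟨w[k], List.getElem?_eq_getElem hk, hfac w hw _ ?_⟩
          have h2 : [w[k]] = (w.drop k).take 1 := by
            rw [List.take_succ, List.getElem?_drop, Nat.add_zero, List.getElem?_eq_getElem hk]
            simp
          rw [h2]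
          exact ((List.take_prefix _ _).isInfix).trans (List.drop_suffix _ _).isInfix
        obtain ⟨a, ha, haF⟩ := hget (i + y) (by omega)
        obtain ⟨b, hb, hbF⟩ := hget (j + y) (by omega)
        have hab : a = b := by
          by_contra hne
          have hnil : ([] : List α) ∈ RS F n :=
            ⟨⟨hfac w hw _ (List.nil_infix), by rw [hn0]; rfl⟩, a, b, hne, haF, hbF⟩
          exact hcon _ hnil List.nil_infix
        rw [ha, hb, hab]
      · -- positions inside windows
        by_cases hy2 : j + y + n ≤ w.length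
        · have h3 := congrArg (fun l => l[0]?) (step y hy2)
          have hg : ∀ k, (W k)[0]? = w[k]? := by
            intro k
            show ((w.drop k).take n)[0]? = _
            rw [List.getElem?_take, if_pos (by omega), List.getElem?_drop, Nat.add_zero]
          rw [hg, hg] at h3
          exact h3
        · obtain ⟨t, ht⟩ : ∃ t, t = w.length - n - j := ⟨_, rfl⟩
          have h3 := congrArg (fun l => l[y - t]?) (step t (by omega))
          have hg : ∀ k, (W k)[y - t]? = w[k + (y - t)]? := by
            intro k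
            show ((w.drop k).take n)[y - t]? = _
            rw [List.getElem?_take, if_pos (by omega), List.getElem?_drop]
          rw [hg, hg] at h3
          have e2 : i + t + (y - t) = i + y := by omega
          have e3 : j + t + (y - t) = j + y := by omega
          rw [e2, e3] at h3
          exact h3
    have hNd : N * d ≤ N * c := Nat.mul_le_mul_left _ (by omega)
    obtain ⟨z, hz, -, h4⟩ := pow_of_period (s := w) (p := i) (d := d) (len := w.length - j) (N := N)
      (by omega) (by omega) (by omega) (by omega) hag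
    refine hN z hz ?_
    rw [h4]
    exact hfac w hw _ (((List.take_prefix _ _).isInfix).trans (List.drop_suffix _ _).isInfix)
  rcases lt_or_gt_of_ne hij with h | h
  · exact main i j h (by omega) hWij
  · exact main j i h (by omega) hWij.symm

/-- languages of low complexity without high powers -/
theorem regular_low (L : Language α) (hL : L.IsRegular) (F : Set (List α))
    (hfac : ∀ w ∈ F, ∀ u : List α, u <:+: w → u ∈ F) (hext : ∀ w ∈ F, ∃ a, w ++ [a] ∈ F) (N : ℕ)
    (hN : ∀ z : List α, z ≠ [] → (List.replicate N z).flatten ∉ F) (C : ℕ)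
    (hC : ∀ n₀, ∃ n, n₀ ≤ n ∧ (Lev F n).ncard ^ 15 ≤ C * n ^ 16) :
    ∃ Z : Set (List α), F ⊆ Z ∧ SH 0 Z ∧ SH 1 {w : List α | w ∈ L ∧ w ∈ Z} := by
  classical
  obtain ⟨D, hD⟩ := regular_free L hL N
  have hstep : ∀ n, (Lev F n).ncard ≤ (Lev F (n + 1)).ncard := fun n => by
    have := RS_card hext n
    omega
  obtain ⟨k, hk⟩ := exists_good (fun n => (Lev F n).ncard) hstep C D hC
  have hfin := RS_finite F k
  letI : Fintype (RS F k) := hfin.fintype
  let s : RS F k → List α := fun u => u.1
  have hcard : Fintype.card (RS F k) ≤ (Lev F (k + 1)).ncard - (Lev F k).ncard := by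
    have h1 := RS_card hext k
    have h2 : Fintype.card (RS F k) = (RS F k).ncard := by
      rw [← Nat.card_eq_fintype_card, Nat.card_coe_set_eq]
    omega
  have hs : ∀ q, D * ((Lev F (k + 1)).ncard - (Lev F k).ncard + 1) ^ 14 ≤ (s q).length ∧
      Free N (s q) := by
    intro q
    refine ⟨?_, fun z hz hzq => hN z hz (hfac _ q.2.1.1 _ hzq)⟩
    have h1 : (s q).length = k := q.2.1.2
    rw [h1]; exact hk
  refine ⟨{w | Synd s ((N + 1) * (Lev F k).ncard + k) w}, ?_, SH.synd s _, hD _ _ s hcard hs _⟩
  intro w hw u hu hm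
  obtain ⟨v, hv, hvu⟩ := exists_RS hfac hN k (hfac w hw u hu) (le_of_eq hm.symm)
  exact ⟨⟨v, hv⟩, hvu⟩

end special

end Vale.Agent.P329.Mark
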